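import Vale.Agent.P128.Stream.Potential

/-!
# P128, piece H: the potential of an arc contained in `K`
-/

open MeasureTheory Set Metric Filter
open scoped ENNReal Topology Real

noncomputable section

namespace Vale.Agent.P128.StreamAux

/-- `(z - q)⁻¹ - (z - p)⁻¹`. -/
def kap (p q z : ℂ) : ℂ := (z - q)⁻¹ - (z - p)⁻¹

/-- First component of the gradient of `log (|z-q|/|z-p|) / 2π`. -/
def ex (p q z : ℂ) : ℝ := (kap p q z).re / (2 * π)

/-- Second component of the gradient of `log (|z-q|/|z-p|) / 2π`. -/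
def ey (p q z : ℂ) : ℝ := -(kap p q z).im / (2 * π)

theorem differentiableAt_kap {p q z : ℂ} (hp : z ≠ p) (hq : z ≠ q) :
    DifferentiableAt ℂ (kap p q) z :=
  ((differentiableAt_id.sub_const q).inv (sub_ne_zero.2 hq)).sub
    ((differentiableAt_id.sub_const p).inv (sub_ne_zero.2 hp))

theorem contDiffAt_kap {p q z : ℂ} (hp : z ≠ p) (hq : z ≠ q) :
    ContDiffAt ℝ 1 (kap p q) z :=
  (((contDiffAt_id.sub contDiffAt_const).inv (sub_ne_zero.2 hq)).sub
    ((contDiffAt_id.sub contDiffAt_const).inv (sub_ne_zero.2 hp)))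

theorem contDiffAt_ex {p q z : ℂ} (hp : z ≠ p) (hq : z ≠ q) :
    ContDiffAt ℝ 1 (ex p q) z :=
  (Complex.reCLM.contDiff.contDiffAt.comp z (contDiffAt_kap hp hq)).div_const _

theorem contDiffAt_ey {p q z : ℂ} (hp : z ≠ p) (hq : z ≠ q) :
    ContDiffAt ℝ 1 (ey p q) z :=
  (Complex.imCLM.contDiff.contDiffAt.comp z (contDiffAt_kap hp hq)).neg.div_const _

theorem div_ex_ey {p q z : ℂ} (hp : z ≠ p) (hq : z ≠ q) :
    fderiv ℝ (ex p q) z 1 + fderiv ℝ (ey p q) z Complex.I = 0 := by
  have hd := ((differentiableAt_kap hp hq).hasDerivAt).complexToReal_fderiv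
  have hx : HasFDerivAt (fun z => (kap p q z).re * (2 * π)⁻¹) _ z :=
    (Complex.reCLM.hasFDerivAt.comp z hd).mul_const ((2 * π)⁻¹)
  have hy : HasFDerivAt (fun z => -(kap p q z).im * (2 * π)⁻¹) _ z :=
    (Complex.imCLM.hasFDerivAt.comp z hd).neg.mul_const ((2 * π)⁻¹)
  rw [show ex p q = fun z => (kap p q z).re * (2 * π)⁻¹ from
      funext fun z => div_eq_mul_inv _ _,
    show ey p q = fun z => -(kap p q z).im * (2 * π)⁻¹ from
      funext fun z => div_eq_mul_inv _ _, hx.fderiv, hy.fderiv]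
  simp

/-- A function multiplied by a `C¹` cutoff vanishing near its singular points. -/
theorem contDiff_mul_cutoff {p q : ℂ} {ζ g : ℂ → ℝ} (hζ : ContDiff ℝ 1 ζ)
    (hp : p ∉ tsupport ζ) (hq : q ∉ tsupport ζ)
    (hg : ∀ z, z ≠ p → z ≠ q → ContDiffAt ℝ 1 g z) : ContDiff ℝ 1 fun z => ζ z * g z := by
  rw [contDiff_iff_contDiffAt]
  intro z
  by_cases hz : z ∈ tsupport ζ
  · exact hζ.contDiffAt.mul (hg z (fun e => hp (e ▸ hz)) (fun e => hq (e ▸ hz)))
  · refine (contDiffAt_const (c := (0 : ℝ))).congr_of_eventuallyEq ?_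
    filter_upwards [(isClosed_tsupport ζ).isOpen_compl.mem_nhds hz] with w hw
    simp [image_eq_zero_of_notMem_tsupport hw]

/-- The hypotheses on the arc used below. -/
structure ArcData (K : Set ℂ) (g : ℝ → ℂ) (T : ℝ) (p q : ℂ) : Prop where
  pos : 0 < T
  lip : LipschitzWith 1 g
  maps : ∀ t ∈ Icc 0 T, g t ∈ K
  source : g 0 = p
  target : g T = q
  inj : ∀ t ∈ Ioc 0 T, g t ≠ p
  inj' : ∀ t ∈ Ico 0 T, g t ≠ q
  time : ∀ (c : ℂ) (s : ℝ), 0 < s →
    volume (Icc 0 T ∩ g ⁻¹' ball c s) ≤ ENNReal.ofReal (2 * π * s)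

variable {K : Set ℂ} {g : ℝ → ℂ} {T : ℝ} {p q : ℂ}

/-- The Cauchy integral of the arc. -/
def cau (g : ℝ → ℂ) (T : ℝ) (z : ℂ) : ℂ := ∫ t in (0 : ℝ)..T, deriv g t / (g t - z)

/-- The test potential: it jumps across the arc only. -/
def arcPot (g : ℝ → ℂ) (T : ℝ) (z : ℂ) : ℝ := (cau g T z).im / (2 * π)

/-- The singular integral `∫ |g t - z|^{-a}` as an extended real. -/
def sing (g : ℝ → ℂ) (T a : ℝ) (z : ℂ) : ℝ≥0∞ :=
  ∫⁻ t in Icc 0 T, ENNReal.ofReal (‖g t - z‖ ^ (-a))

theorem exists_sing_bound (d : ArcData K g T p q) {a : ℝ} (ha : 0 < a) (ha1 : a < 1) :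
    ∃ A : ℝ, 0 < A ∧ ∀ z, sing g T a z ≤ ENNReal.ofReal A := by
  have hint : IntegrableOn (fun l : ℝ => 2 * π * l ^ (-a⁻¹)) (Ioi 1) :=
    (integrableOn_Ioi_rpow_of_lt (by
      have : 1 < a⁻¹ := (one_lt_inv₀ ha).2 ha1
      linarith) one_pos).const_mul _
  refine ⟨T + ∫ l in Ioi (1 : ℝ), 2 * π * l ^ (-a⁻¹), add_pos_of_pos_of_nonneg d.pos
    (setIntegral_nonneg measurableSet_Ioi fun l hl => by
      have := Real.rpow_nonneg (le_trans zero_le_one (mem_Ioi.1 hl).le) (-a⁻¹)
      positivity), fun z => ?_⟩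
  have hgm : Continuous g := d.lip.continuous
  rw [sing, lintegral_eq_lintegral_meas_lt _
    (Eventually.of_forall fun t => Real.rpow_nonneg (norm_nonneg _) _)
    (by fun_prop)]
  have hsplit : Ioi (0 : ℝ) = Ioc 0 1 ∪ Ioi 1 := (Ioc_union_Ioi_eq_Ioi zero_le_one).symm
  rw [hsplit, lintegral_union measurableSet_Ioi Ioc_disjoint_Ioi_same,
    ENNReal.ofReal_add d.pos.le (setIntegral_nonneg measurableSet_Ioi fun l hl => by
      have := Real.rpow_nonneg (le_trans zero_le_one (mem_Ioi.1 hl).le) (-a⁻¹)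
      positivity)]
  refine add_le_add ?_ ?_
  · calc _ ≤ ∫⁻ _ in Ioc (0 : ℝ) 1, ENNReal.ofReal T :=
          lintegral_mono fun l => (measure_mono (subset_univ _)).trans (by simp)
      _ = _ := by simp
  · rw [ofReal_integral_eq_lintegral_ofReal hint
      ((ae_restrict_iff' measurableSet_Ioi).2 (Eventually.of_forall fun l hl => by
        have := Real.rpow_nonneg (le_trans zero_le_one (mem_Ioi.1 hl).le) (-a⁻¹)
        positivity))]
    refine setLIntegral_mono' measurableSet_Ioi fun l hl => ?_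
    have hl0 : (0 : ℝ) < l := lt_trans one_pos hl
    have hs : 0 < l ^ (-a⁻¹) := Real.rpow_pos_of_pos hl0 _
    refine le_trans ?_ (d.time z _ hs)
    rw [Measure.restrict_apply' measurableSet_Icc, inter_comm]
    refine measure_mono fun t ht => ⟨ht.1, ?_⟩
    have h2 : l < ‖g t - z‖ ^ (-a) := ht.2
    have hne : g t - z ≠ 0 := by
      intro e
      rw [e, norm_zero, Real.zero_rpow (by linarith)] at h2
      linarith
    rw [mem_preimage, mem_ball, dist_eq_norm]
    have h3 : (‖g t - z‖ ^ (-a)) ^ (-a⁻¹) < l ^ (-a⁻¹) :=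
      Real.rpow_lt_rpow_of_neg hl0 h2 (by simpa using ha)
    rwa [← Real.rpow_mul (norm_nonneg _), neg_mul_neg, mul_inv_cancel₀ ha.ne',
      Real.rpow_one] at h3

theorem norm_deriv_le (d : ArcData K g T p q) (t : ℝ) : ‖deriv g t‖ ≤ 1 := by
  simpa using norm_deriv_le_of_lipschitz d.lip (x₀ := t)

theorem dist_pos_of_notMem (hK : IsClosed K) {z : ℂ} (hz : z ∉ K) :
    ∃ δ > 0, ∀ x ∈ K, δ ≤ ‖x - z‖ := by
  obtain ⟨δ, hδ, hδ'⟩ := Metric.isOpen_iff.1 hK.isOpen_compl z hz
  refine ⟨δ, hδ, fun x hx => le_of_not_gt fun hlt => hδ' ?_ hx⟩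
  rwa [mem_ball, dist_eq_norm]

theorem norm_inv_integrable (d : ArcData K g T p q) (hK : IsClosed K) {z : ℂ} (hz : z ∉ K)
    (a : ℝ) : IntegrableOn (fun t => ‖g t - z‖ ^ a) (Icc 0 T) :=
  (ContinuousOn.rpow_const (d.lip.continuous.sub continuous_const).norm.continuousOn
    fun t ht => Or.inl (by
      obtain ⟨δ, hδ, hδ'⟩ := dist_pos_of_notMem hK hz
      exact (lt_of_lt_of_le hδ (hδ' _ (d.maps t ht))).ne')).integrableOn_Icc

theorem arcPot_abs_le (d : ArcData K g T p q) (hK : IsClosed K) {z : ℂ} (hz : z ∉ K) :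
    |arcPot g T z| ≤ (2 * π)⁻¹ * ∫ t in Icc 0 T, ‖g t - z‖ ^ (-1 : ℝ) := by
  rw [arcPot, abs_div, abs_of_pos Real.two_pi_pos, div_eq_inv_mul]
  refine mul_le_mul_of_nonneg_left ((Complex.abs_im_le_norm _).trans ?_) (by positivity)
  rw [cau, intervalIntegral.integral_of_le d.pos.le, integral_Icc_eq_integral_Ioc]
  refine (norm_integral_le_integral_norm _).trans (integral_mono_of_nonneg
    (Eventually.of_forall fun t => norm_nonneg _)
    ((norm_inv_integrable d hK hz _).mono_set Ioc_subset_Icc_self)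
    (Eventually.of_forall fun t => ?_))
  simp only [div_eq_mul_inv, norm_mul, norm_inv, Real.rpow_neg_one]
  exact mul_le_of_le_one_left (inv_nonneg.2 (norm_nonneg _)) (norm_deriv_le d t)

theorem arcPot_sq_le (d : ArcData K g T p q) (hK : IsClosed K) {B : ℝ} (hB0 : 0 < B)
    (hB : ∀ z, sing g T (1 / 2) z ≤ ENNReal.ofReal B) {z : ℂ} (hz : z ∉ K) :
    ENNReal.ofReal (arcPot g T z ^ 2) ≤ ENNReal.ofReal B * sing g T (3 / 2) z := by
  set J : ℝ → ℝ := fun a => ∫ t in Icc 0 T, ‖g t - z‖ ^ (-a) with hJ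
  have hJs : ∀ a, ENNReal.ofReal (J a) = sing g T a z := fun a =>
    ofReal_integral_eq_lintegral_ofReal (norm_inv_integrable d hK hz _)
      (Eventually.of_forall fun t => Real.rpow_nonneg (norm_nonneg _) _)
  have hJ0 : ∀ a, 0 ≤ J a := fun a => integral_nonneg fun t => Real.rpow_nonneg (norm_nonneg _) _
  have hJB : J (1 / 2) ≤ B := by
    have := hB z
    rwa [← hJs, ENNReal.ofReal_le_ofReal_iff hB0.le] at this
  have key : ∀ l : ℝ, 0 < l → J 1 ≤ (l * J (3 / 2) + J (1 / 2) / l) / 2 := by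
    intro l hl
    simp only [hJ]
    rw [← integral_div, ← integral_const_mul, ← integral_add
      ((norm_inv_integrable d hK hz _).const_mul _) ((norm_inv_integrable d hK hz _).div_const _),
      ← integral_div]
    refine setIntegral_mono_on (norm_inv_integrable d hK hz _)
      ((((norm_inv_integrable d hK hz _).const_mul _).add
        ((norm_inv_integrable d hK hz _).div_const _)).div_const _) measurableSet_Icc fun t ht => ?_
    obtain ⟨δ, hδ, hδ'⟩ := dist_pos_of_notMem hK hz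
    have hpos : 0 < ‖g t - z‖ := lt_of_lt_of_le hδ (hδ' _ (d.maps t ht))
    set a := ‖g t - z‖ ^ (-(3 / 4) : ℝ)
    set b := ‖g t - z‖ ^ (-(1 / 4) : ℝ)
    have e1 : ‖g t - z‖ ^ (-(1 : ℝ)) = a * b := by
      rw [← Real.rpow_add hpos]; norm_num
    have e2 : ‖g t - z‖ ^ (-(3 / 2) : ℝ) = a * a := by
      rw [← Real.rpow_add hpos]; norm_num
    have e3 : ‖g t - z‖ ^ (-(1 / 2) : ℝ) = b * b := by
      rw [← Real.rpow_add hpos]; norm_num
    rw [e1, e2, e3, le_div_iff₀ two_pos]
    have h4 : l * (a * a) + b * b / l - a * b * 2 = (l * a - b) ^ 2 / l := by field_simp; ring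
    have h5 : 0 ≤ (l * a - b) ^ 2 / l := by positivity
    linarith
  have hb := arcPot_abs_le d hK hz
  rw [← hJs, ← ENNReal.ofReal_mul hB0.le]
  refine ENNReal.ofReal_le_ofReal ?_
  have h1 : J 1 ^ 2 ≤ B * J (3 / 2) := by
    rcases (hJ0 (3 / 2)).eq_or_lt with h0 | h0
    · have hle : ∀ l : ℝ, 0 < l → J 1 ≤ B / (2 * l) := fun l hl => by
        refine (key l hl).trans ?_
        rw [← h0, mul_zero, zero_add, div_div, mul_comm l]
        gcongr
      have : J 1 = 0 := by
        refine le_antisymm (le_of_forall_gt_imp_ge_of_dense fun e he => ?_) (hJ0 1)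
        refine (hle (B / (2 * e)) (by positivity)).trans (le_of_eq ?_)
        field_simp
      rw [this, ← h0]; simp
    · have hs : 0 < Real.sqrt (B / J (3 / 2)) := Real.sqrt_pos.2 (by positivity)
      set l := Real.sqrt (B / J (3 / 2))
      have hl2 : l ^ 2 * J (3 / 2) = B := by
        rw [Real.sq_sqrt (by positivity)]; field_simp
      have h2 : J 1 ≤ l * J (3 / 2) := by
        refine (key l hs).trans ?_
        rw [div_le_iff₀ two_pos]
        have : J (1 / 2) / l ≤ l * J (3 / 2) := by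
          rw [div_le_iff₀ hs]; nlinarith
        linarith
      calc J 1 ^ 2 ≤ (l * J (3 / 2)) ^ 2 := pow_le_pow_left₀ (hJ0 1) h2 2
        _ = B * J (3 / 2) := by rw [← hl2]; ring
  have h2π : (1 : ℝ) ≤ 2 * π := by linarith [Real.pi_gt_three]
  calc arcPot g T z ^ 2 = |arcPot g T z| ^ 2 := (sq_abs _).symm
    _ ≤ ((2 * π)⁻¹ * J 1) ^ 2 := pow_le_pow_left₀ (abs_nonneg _) hb 2
    _ ≤ (1 * J 1) ^ 2 := by
        refine pow_le_pow_left₀ (mul_nonneg (by positivity) (hJ0 1))
          (mul_le_mul_of_nonneg_right (inv_le_one_of_one_le₀ h2π) (hJ0 1)) 2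
    _ ≤ _ := by rw [one_mul]; exact h1

theorem exists_arcPot_sq_bound (d : ArcData K g T p q) (hK : IsClosed K) :
    ∃ C : ℝ, 0 ≤ C ∧ ∀ (c : ℂ) (ρ : ℝ), 0 < ρ →
      (∫⁻ z in ball c ρ \ K, ENNReal.ofReal (arcPot g T z ^ 2) ≤
        ENNReal.ofReal (C * Real.sqrt ρ)) ∧
      ((c = p ∨ c = q) → ∫⁻ z in ball c ρ \ K, ENNReal.ofReal (arcPot g T z ^ 2) ≤
        ENNReal.ofReal (C * ρ ^ (5 / 4 : ℝ))) := by
  obtain ⟨B, hB0, hB⟩ := exists_sing_bound d (a := 1 / 2) (by norm_num) (by norm_num)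
  obtain ⟨A, hA0, hA⟩ := exists_sing_bound d (a := 3 / 4) (by norm_num) (by norm_num)
  have hgm : Continuous g := d.lip.continuous
  refine ⟨B * (8 * π * T) + B * (16 * π * A),
    by have := d.pos; positivity, fun c ρ hρ => ?_⟩
  have hmain : ∫⁻ z in ball c ρ \ K, ENNReal.ofReal (arcPot g T z ^ 2) ≤
      ENNReal.ofReal B * ∫⁻ t in Icc 0 T,
        ∫⁻ z in ball c ρ, ENNReal.ofReal (‖z - g t‖ ^ (-(3 / 2) : ℝ)) := by
    calc _ ≤ ∫⁻ z in ball c ρ \ K, ENNReal.ofReal B * sing g T (3 / 2) z :=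
          setLIntegral_mono' (measurableSet_ball.diff hK.measurableSet) fun z hz =>
            arcPot_sq_le d hK hB0 hB hz.2
      _ ≤ ∫⁻ z in ball c ρ, ENNReal.ofReal B * sing g T (3 / 2) z :=
          lintegral_mono_set sdiff_subset
      _ = _ := by
          rw [lintegral_const_mul' _ _ ENNReal.ofReal_ne_top]
          congr 1
          simp only [sing]
          rw [lintegral_lintegral_swap (Measurable.aemeasurable (by fun_prop))]
          simp only [norm_sub_rev (g _)]
  constructor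
  · refine hmain.trans (le_trans ?_ (ENNReal.ofReal_le_ofReal
      (show B * (8 * π * Real.sqrt ρ * T) ≤ _ from ?_)))
    · rw [ENNReal.ofReal_mul hB0.le, ENNReal.ofReal_mul (by positivity)]
      refine mul_le_mul_right ?_ _
      calc _ ≤ ∫⁻ _ in Icc 0 T, ENNReal.ofReal (8 * π * Real.sqrt ρ) :=
            lintegral_mono fun t => (singular_ball_le c (g t) ρ hρ).1
        _ = _ := by simp
    · have : 0 ≤ B * (16 * π * A) * Real.sqrt ρ := by positivity
      linarith
  · intro hc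
    refine hmain.trans (le_trans ?_ (ENNReal.ofReal_le_ofReal
      (show B * (16 * π * ρ ^ (5 / 4 : ℝ) * A) ≤ _ from ?_)))
    · rw [ENNReal.ofReal_mul hB0.le, ENNReal.ofReal_mul (by positivity)]
      refine mul_le_mul_right ?_ _
      calc _ ≤ ∫⁻ t in Icc 0 T, ENNReal.ofReal (16 * π * ρ ^ (5 / 4 : ℝ)) *
              ENNReal.ofReal (‖g t - c‖ ^ (-(3 / 4) : ℝ)) := by
            refine setLIntegral_mono_ae' measurableSet_Icc ?_
            filter_upwards [(show ∀ᵐ t : ℝ, t ∉ ({0, T} : Set ℝ) from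
              measure_eq_zero_iff_ae_notMem.1 ((Set.toFinite _).measure_zero _))] with t h0 ht
            simp only [mem_insert_iff, mem_singleton_iff, not_or] at h0
            rw [← ENNReal.ofReal_mul (by positivity)]
            refine (singular_ball_le c (g t) ρ hρ).2 ?_
            rcases hc with rfl | rfl
            · exact d.inj t ⟨lt_of_le_of_ne ht.1 (Ne.symm h0.1), ht.2⟩
            · exact d.inj' t ⟨ht.1, lt_of_le_of_ne ht.2 h0.2⟩
        _ ≤ _ := by
            rw [lintegral_const_mul' _ _ ENNReal.ofReal_ne_top]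
            exact mul_le_mul_right (hA c) _
    · have : 0 ≤ B * (8 * π * T) * ρ ^ (5 / 4 : ℝ) := by have := d.pos; positivity
      linarith

theorem integral_deriv_complex {w : ℝ → ℂ} {C : NNReal} {a b : ℝ}
    (hw : LipschitzOnWith C w (uIcc a b)) {w' : ℝ → ℂ}
    (hd : ∀ᵐ t, t ∈ uIoc a b → HasDerivAt w (w' t) t) (hi : IntervalIntegrable w' volume a b) :
    ∫ t in a..b, w' t = w b - w a := by
  have aux : ∀ L : ℂ →L[ℝ] ℝ, L (∫ t in a..b, w' t) = L (w b) - L (w a) := by
    intro L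
    rw [← L.intervalIntegral_comp_comm hi]
    have hac := (L.lipschitz.comp_lipschitzOnWith hw).absolutelyContinuousOnInterval
    have hL := hac.integral_deriv_eq_sub
    simp only [Function.comp_apply] at hL
    rw [← hL]
    refine intervalIntegral.integral_congr_ae ?_
    filter_upwards [hd] with t ht htm
    exact ((L.hasFDerivAt.comp_hasDerivAt t (ht htm)).deriv).symm
  apply Complex.ext
  · simpa using aux Complex.reCLM
  · simpa using aux Complex.imCLM

theorem hasDerivAt_cau (d : ArcData K g T p q) (hK : IsClosed K) {z : ℂ} (hz : z ∉ K) :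
    HasDerivAt (cau g T) (kap p q z) z := by
  obtain ⟨δ, hδ, hδ'⟩ := dist_pos_of_notMem hK hz
  have hgm : Continuous g := d.lip.continuous
  have hfar : ∀ t ∈ Icc 0 T, ∀ x ∈ ball z (δ / 2), δ / 2 ≤ ‖g t - x‖ := by
    intro t ht x hx
    have h1 := hδ' _ (d.maps t ht)
    have h2 := norm_sub_le_norm_sub_add_norm_sub (g t) x z
    rw [mem_ball, dist_eq_norm] at hx
    linarith
  have hne : ∀ t ∈ Icc 0 T, ∀ x ∈ ball z (δ / 2), g t - x ≠ 0 := fun t ht x hx =>
    norm_pos_iff.1 (lt_of_lt_of_le (by positivity) (hfar t ht x hx))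
  have hsub : uIoc 0 T ⊆ Icc 0 T := by
    rw [uIoc_of_le d.pos.le]; exact Ioc_subset_Icc_self
  have hmem : z ∈ ball z (δ / 2) := mem_ball_self (by positivity)
  have hmeas : ∀ x, AEStronglyMeasurable (fun t => deriv g t / (g t - x))
      (volume.restrict (uIoc 0 T)) := fun x => by
    refine Measurable.aestronglyMeasurable ?_
    have := measurable_deriv g
    fun_prop
  have hbd : ∀ x ∈ ball z (δ / 2), ∀ t ∈ uIoc 0 T, ‖deriv g t / (g t - x)‖ ≤ 2 / δ := by
    intro x hx t ht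
    rw [norm_div]
    calc ‖deriv g t‖ / ‖g t - x‖ ≤ 1 / (δ / 2) :=
          div_le_div₀ zero_le_one (norm_deriv_le d t) (by positivity) (hfar t (hsub ht) x hx)
      _ = 2 / δ := by field_simp
  have hbd2 : ∀ x ∈ ball z (δ / 2), ∀ t ∈ uIoc 0 T,
      ‖deriv g t / (g t - x) ^ 2‖ ≤ 4 / δ ^ 2 := by
    intro x hx t ht
    rw [norm_div, norm_pow]
    calc ‖deriv g t‖ / ‖g t - x‖ ^ 2 ≤ 1 / (δ / 2) ^ 2 :=
          div_le_div₀ zero_le_one (norm_deriv_le d t) (by positivity)
            (pow_le_pow_left₀ (by positivity) (hfar t (hsub ht) x hx) 2)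
      _ = 4 / δ ^ 2 := by field_simp; ring
  have hi2 : IntervalIntegrable (fun t => deriv g t / (g t - z) ^ 2) volume 0 T := by
    refine IntervalIntegrable.mono_fun' (intervalIntegrable_const (c := 4 / δ ^ 2)) ?_ ?_
    · refine Measurable.aestronglyMeasurable ?_
      have := measurable_deriv g
      fun_prop
    · exact (ae_restrict_iff' measurableSet_uIoc).2
        (Eventually.of_forall fun t ht => hbd2 z hmem t ht)
  have h := (intervalIntegral.hasDerivAt_integral_of_dominated_loc_of_deriv_le (𝕜 := ℂ)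
    (μ := volume) (a := (0 : ℝ)) (b := T) (F := fun x t => deriv g t / (g t - x))
    (F' := fun x t => deriv g t / (g t - x) ^ 2) (bound := fun _ => 4 / δ ^ 2)
    (ball_mem_nhds z (half_pos hδ)) (Eventually.of_forall hmeas)
    (IntervalIntegrable.mono_fun' (intervalIntegrable_const (c := 2 / δ)) (hmeas z)
      ((ae_restrict_iff' measurableSet_uIoc).2
        (Eventually.of_forall fun t ht => hbd z hmem t ht)))
    (by
      refine Measurable.aestronglyMeasurable ?_
      have := measurable_deriv g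
      fun_prop)
    (Eventually.of_forall fun t ht x hx => hbd2 x hx t ht) intervalIntegrable_const
    (Eventually.of_forall fun t ht x hx => by
      have h1 := (((hasDerivAt_id x).const_sub (g t)).inv (hne t (hsub ht) x hx)).const_mul
        (deriv g t)
      simpa [div_eq_mul_inv] using h1)).2
  suffices e : ∫ t in (0 : ℝ)..T, deriv g t / (g t - z) ^ 2 = kap p q z by
    rw [← e]; exact h
  have hlip : LipschitzOnWith (Real.toNNReal (1 / δ ^ 2)) (fun t => -(g t - z)⁻¹) (uIcc 0 T) := by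
    refine LipschitzOnWith.of_dist_le_mul fun s hs t ht => ?_
    rw [uIcc_of_le d.pos.le] at hs ht
    have a1 := hδ' _ (d.maps s hs)
    have a2 := hδ' _ (d.maps t ht)
    rw [dist_neg_neg, dist_eq_norm, Real.coe_toNNReal _ (by positivity),
      inv_sub_inv (hne s hs z hmem) (hne t ht z hmem), norm_div, norm_mul, sub_sub_sub_cancel_right]
    have h1 : ‖g t - g s‖ ≤ dist s t := by
      rw [← dist_eq_norm, dist_comm]
      simpa using d.lip.dist_le_mul s t
    calc ‖g t - g s‖ / (‖g s - z‖ * ‖g t - z‖) ≤ dist s t / (δ * δ) :=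
          div_le_div₀ dist_nonneg h1 (by positivity) (mul_le_mul a1 a2 hδ.le (norm_nonneg _))
      _ = 1 / δ ^ 2 * dist s t := by ring
  rw [integral_deriv_complex hlip ?_ hi2]
  · simp only [kap, d.source, d.target]
    rw [← inv_neg, neg_sub]
    congr 1
    rw [← inv_neg, neg_sub]
  · filter_upwards [d.lip.ae_differentiableAt_real] with t ht htm
    have h1 := ((ht.hasDerivAt.sub_const z).inv (hne t (hsub htm) z hmem)).neg
    refine HasDerivAt.congr_of_eventuallyEq ?_ (Eventually.of_forall fun _ => rfl)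
    simpa [neg_div, Pi.inv_def, Pi.neg_def] using h1

theorem arcPot_fderiv (d : ArcData K g T p q) (hK : IsClosed K) {z : ℂ} (hz : z ∉ K) :
    fderiv ℝ (arcPot g T) z 1 = -ey p q z ∧
      fderiv ℝ (arcPot g T) z Complex.I = ex p q z := by
  have h : HasFDerivAt (fun z => (cau g T z).im * (2 * π)⁻¹) _ z :=
    (Complex.imCLM.hasFDerivAt.comp z (hasDerivAt_cau d hK hz).complexToReal_fderiv).mul_const
      ((2 * π)⁻¹)
  rw [show arcPot g T = fun z => (cau g T z).im * (2 * π)⁻¹ from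
    funext fun z => div_eq_mul_inv _ _, h.fderiv]
  constructor <;> simp [ex, ey, div_eq_mul_inv] <;> ring

theorem contDiffOn_arcPot (d : ArcData K g T p q) (hK : IsClosed K) :
    ContDiffOn ℝ 1 (arcPot g T) Kᶜ := by
  have h : DifferentiableOn ℂ (cau g T) Kᶜ := fun z hz =>
    (hasDerivAt_cau d hK hz).differentiableAt.differentiableWithinAt
  have h2 : ContDiffOn ℝ 1 (cau g T) Kᶜ :=
    ((h.contDiffOn hK.isOpen_compl).restrict_scalars ℝ)
  exact (Complex.imCLM.contDiff.comp_contDiffOn h2).div_const _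

end Vale.Agent.P128.StreamAux
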