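import Vale.Agent.P128.Stream.Arc

/-!
# P128, piece H: cutoffs and the flux of the point sources
-/

open MeasureTheory Set Metric Filter
open scoped ENNReal Topology Real

noncomputable section

namespace Vale.Agent.P128.StreamAux

/-- The profile of the cutoff as a function of the squared norm. -/
def sig (s : ℝ) : ℝ := Real.smoothTransition ((4 - s) / 3)

theorem sig_contDiff : ContDiff ℝ 1 sig :=
  Real.smoothTransition.contDiff.comp (by fun_prop)

theorem sig_antitone : Antitone sig := fun a b h =>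
  Real.smoothTransition.monotone (by linarith)

theorem sig_of_le {s : ℝ} (h : s ≤ 1) : sig s = 1 :=
  Real.smoothTransition.one_of_one_le (by linarith)

theorem sig_of_ge {s : ℝ} (h : 4 ≤ s) : sig s = 0 :=
  Real.smoothTransition.zero_of_nonpos (by linarith)

/-- The radial cutoff, `1` on the unit disc and `0` outside the disc of radius `2`. -/
def eta (w : ℂ) : ℝ := sig (‖w‖ ^ 2)

theorem eta_contDiff : ContDiff ℝ 1 eta := sig_contDiff.comp (contDiff_norm_sq ℝ)

theorem eta_of_le {w : ℂ} (h : ‖w‖ ≤ 1) : eta w = 1 :=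
  sig_of_le (by nlinarith [norm_nonneg w])

theorem eta_of_ge {w : ℂ} (h : 2 ≤ ‖w‖) : eta w = 0 := sig_of_ge (by nlinarith)

theorem fderiv_eta_eq_zero {w : ℂ} (h : ‖w‖ < 1 ∨ 2 < ‖w‖) : fderiv ℝ eta w = 0 := by
  rcases h with h | h
  · have e : eta =ᶠ[𝓝 w] fun _ => (1 : ℝ) := by
      filter_upwards [(isOpen_lt continuous_norm continuous_const).mem_nhds h] with x hx
      exact eta_of_le (le_of_lt hx)
    rw [e.fderiv_eq]; simp
  · have e : eta =ᶠ[𝓝 w] fun _ => (0 : ℝ) := by
      filter_upwards [(isOpen_lt continuous_const continuous_norm).mem_nhds h] with x hx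
      exact eta_of_ge (le_of_lt hx)
    rw [e.fderiv_eq]; simp

theorem exists_fderiv_eta_bound : ∃ M : ℝ, 0 ≤ M ∧ ∀ w, ‖fderiv ℝ eta w‖ ≤ M := by
  obtain ⟨M, hM⟩ := (eta_contDiff.continuous_fderiv one_ne_zero).bounded_above_of_compact_support
    (HasCompactSupport.intro (isCompact_closedBall (0 : ℂ) 2) fun w hw =>
      fderiv_eta_eq_zero (Or.inr (by simpa using hw)))
  exact ⟨M, (norm_nonneg _).trans (hM 0), hM⟩

/-- `eta` moved to the centre `c` and scaled by `a`. -/
def cut (a : ℝ) (c z : ℂ) : ℝ := eta (a • (z - c))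

theorem cut_contDiff (a : ℝ) (c : ℂ) : ContDiff ℝ 1 (cut a c) :=
  eta_contDiff.comp (by fun_prop)

theorem cut_of_le {a : ℝ} {c z : ℂ} (ha : 0 ≤ a) (h : a * ‖z - c‖ ≤ 1) : cut a c z = 1 :=
  eta_of_le (by rwa [norm_smul, Real.norm_of_nonneg ha])

theorem cut_of_ge {a : ℝ} {c z : ℂ} (ha : 0 ≤ a) (h : 2 ≤ a * ‖z - c‖) : cut a c z = 0 :=
  eta_of_ge (by rwa [norm_smul, Real.norm_of_nonneg ha])

theorem cut_hasCompactSupport {a : ℝ} (ha : 0 < a) (c : ℂ) : HasCompactSupport (cut a c) := by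
  refine HasCompactSupport.intro (isCompact_closedBall c (2 / a)) fun z hz => cut_of_ge ha.le ?_
  rw [mem_closedBall, not_le, div_lt_iff₀ ha, dist_eq_norm] at hz
  linarith

theorem fderiv_cut (a : ℝ) (c z v : ℂ) :
    fderiv ℝ (cut a c) z v = a * fderiv ℝ eta (a • (z - c)) v := by
  have h : HasFDerivAt (cut a c) _ z :=
    (eta_contDiff.differentiable one_ne_zero (a • (z - c))).hasFDerivAt.comp z
      (((hasFDerivAt_id z).sub_const c).const_smul a)
  rw [h.fderiv]
  simp

theorem norm_fderiv_cut_le {M : ℝ} (hM : ∀ w, ‖fderiv ℝ eta w‖ ≤ M) {a : ℝ} (ha : 0 ≤ a)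
    (c z : ℂ) : ‖fderiv ℝ (cut a c) z‖ ≤ a * M := by
  refine ContinuousLinearMap.opNorm_le_bound _ (mul_nonneg ha ((norm_nonneg _).trans (hM 0)))
    fun v => ?_
  rw [fderiv_cut, norm_mul, Real.norm_of_nonneg ha, mul_assoc]
  exact mul_le_mul_of_nonneg_left ((ContinuousLinearMap.le_opNorm _ v).trans
    (mul_le_mul_of_nonneg_right (hM _) (norm_nonneg _))) ha

theorem fderiv_cut_eq_zero {a : ℝ} (ha : 0 ≤ a) {c z : ℂ}
    (h : a * ‖z - c‖ < 1 ∨ 2 < a * ‖z - c‖) : fderiv ℝ (cut a c) z = 0 := by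
  ext v
  rw [fderiv_cut, fderiv_eta_eq_zero (by rwa [norm_smul, Real.norm_of_nonneg ha])]
  simp

/-- The vector field `(ex, ey)`. -/
def Ev (p q z : ℂ) : ℂ := (2 * π)⁻¹ • starRingEnd ℂ (kap p q z)

theorem Ev_re (p q z : ℂ) : (Ev p q z).re = ex p q z := by
  simp [Ev, ex, div_eq_inv_mul]

theorem Ev_im (p q z : ℂ) : (Ev p q z).im = ey p q z := by
  simp [Ev, ey, div_eq_inv_mul]

theorem Ev_swap (p q z : ℂ) : Ev q p z = -Ev p q z := by
  rw [Ev, Ev, show kap q p z = -kap p q z by simp [kap], map_neg, smul_neg]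

theorem fderiv_Ev (f : ℂ → ℝ) (p q z y : ℂ) :
    fderiv ℝ f y (Ev p q z) =
      ex p q z * fderiv ℝ f y 1 + ey p q z * fderiv ℝ f y Complex.I := by
  have hw : Ev p q z = ex p q z • (1 : ℂ) + ey p q z • Complex.I := by
    apply Complex.ext <;> simp [Ev_re, Ev_im]
  rw [hw, map_add, map_smul, map_smul, smul_eq_mul, smul_eq_mul]

theorem norm_Ev (p q z : ℂ) : ‖Ev p q z‖ = (2 * π)⁻¹ * ‖kap p q z‖ := by
  rw [Ev, norm_smul, RCLike.norm_conj, Real.norm_of_nonneg (by positivity)]

/-- The flux of a point source through the cutoff. -/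
def flux : ℝ := ∫ w, fderiv ℝ eta w ((2 * π)⁻¹ • starRingEnd ℂ w⁻¹)

theorem flux_integrand (w : ℂ) :
    fderiv ℝ eta w ((2 * π)⁻¹ • starRingEnd ℂ w⁻¹) = π⁻¹ * deriv sig (‖w‖ ^ 2) := by
  by_cases hw : w = 0
  · subst hw
    have e : sig =ᶠ[𝓝 0] fun _ => (1 : ℝ) := by
      filter_upwards [eventually_le_nhds (show (0 : ℝ) < 1 by norm_num)] with x hx
      exact sig_of_le hx
    simp [e.deriv_eq, fderiv_eta_eq_zero]
  have hc : starRingEnd ℂ w⁻¹ = (‖w‖ ^ 2)⁻¹ • w := by
    rw [map_inv₀, ← Complex.normSq_eq_norm_sq]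
    apply Complex.ext <;> simp [Complex.inv_re, Complex.inv_im] <;> ring
  have h : HasFDerivAt eta _ w :=
    (sig_contDiff.differentiable one_ne_zero (‖w‖ ^ 2)).hasDerivAt.comp_hasFDerivAt w
      (hasStrictFDerivAt_norm_sq w).hasFDerivAt
  have hn : ‖w‖ ≠ 0 := norm_ne_zero_iff.2 hw
  rw [h.fderiv, hc, smul_smul, map_smul]
  simp
  field_simp

theorem flux_ne_zero : flux ≠ 0 := by
  have hdc : Continuous (deriv sig) := sig_contDiff.continuous_deriv le_rfl
  obtain ⟨s, hs, hs'⟩ := exists_deriv_eq_slope sig (show (1 : ℝ) < 4 by norm_num)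
    sig_contDiff.continuous.continuousOn (sig_contDiff.differentiable one_ne_zero).differentiableOn
  rw [sig_of_ge le_rfl, sig_of_le le_rfl] at hs'
  set f : ℂ → ℝ := fun w => -(π⁻¹ * deriv sig (‖w‖ ^ 2)) with hf
  have hfc : Continuous f := by fun_prop
  have hfs : HasCompactSupport f := by
    refine HasCompactSupport.intro (isCompact_closedBall (0 : ℂ) 2) fun w hw => ?_
    rw [mem_closedBall_zero_iff, not_le] at hw
    have e : sig =ᶠ[𝓝 (‖w‖ ^ 2)] fun _ => (0 : ℝ) := by
      filter_upwards [eventually_ge_nhds (show (4 : ℝ) < ‖w‖ ^ 2 by nlinarith)] with x hx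
      exact sig_of_ge hx
    simp [hf, e.deriv_eq]
  have h := hfc.integral_pos_of_hasCompactSupport_nonneg_nonzero (μ := volume)
    (x := ((Real.sqrt s : ℝ) : ℂ)) hfs
    (fun w => neg_nonneg.2 (mul_nonpos_of_nonneg_of_nonpos (by positivity)
      sig_antitone.deriv_nonpos))
    (by
      simp only [hf, neg_ne_zero, mul_ne_zero_iff]
      refine ⟨by positivity, ?_⟩
      rw [Complex.norm_real, Real.norm_eq_abs, sq_abs, Real.sq_sqrt (by linarith [hs.1]), hs']
      norm_num)
  rw [hf, integral_neg] at h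
  intro h0
  simp only [flux, flux_integrand] at h0
  linarith

/-- Concentration of the flux at the endpoint `b`. -/
theorem tendsto_flux {V : ℂ → ℝ} (hV : Continuous V) {a b : ℂ} (hab : a ≠ b) :
    Tendsto (fun ε : ℝ => ∫ z, V z * fderiv ℝ (cut ε⁻¹ b) z (Ev a b z)) (𝓝[>] 0)
      (𝓝 (flux * V b)) := by
  have hD : 0 < ‖b - a‖ := norm_pos_iff.2 (sub_ne_zero.2 hab.symm)
  set F : ℝ → ℂ → ℝ := fun ε w =>
    V (b + ε • w) * fderiv ℝ eta w (ε • Ev a b (b + ε • w)) with hF
  have heq : ∀ ε : ℝ, 0 < ε →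
      ∫ z, V z * fderiv ℝ (cut ε⁻¹ b) z (Ev a b z) = ∫ w, F ε w := by
    intro ε hε
    set G : ℂ → ℝ := fun z => V z * fderiv ℝ (cut ε⁻¹ b) z (Ev a b z) with hG
    have hc := Measure.integral_comp_smul (μ := (volume : Measure ℂ)) (fun z => G (b + z)) ε
    rw [integral_add_left_eq_self G b, Complex.finrank_real_complex,
      abs_of_nonneg (by positivity), smul_eq_mul] at hc
    have e : ∀ w, F ε w = ε ^ 2 * G (b + ε • w) := by
      intro w
      simp only [hF, hG, fderiv_cut, add_sub_cancel_left, smul_smul, inv_mul_cancel₀ hε.ne',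
        one_smul, map_smul, smul_eq_mul]
      field_simp
    simp only [e, integral_const_mul, hc]
    field_simp
  obtain ⟨M, hM0, hM⟩ := exists_fderiv_eta_bound
  obtain ⟨S, hS⟩ := (isCompact_closedBall b 2).exists_bound_of_continuousOn hV.continuousOn
  set bound : ℂ → ℝ := (closedBall (0 : ℂ) 2).indicator
    fun _ => S * (M * ((2 * π)⁻¹ * (1 + 2 / ‖b - a‖)))
  have hkey : ∀ ε : ℝ, 0 < ε → ∀ w : ℂ, ε • Ev a b (b + ε • w) =
      (2 * π)⁻¹ • starRingEnd ℂ (w⁻¹ - (ε : ℂ) * (b - a + ε • w)⁻¹) := by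
    intro ε hε w
    have hεc : (ε : ℂ) ≠ 0 := by exact_mod_cast hε.ne'
    rw [Ev, smul_comm]
    congr 1
    conv_lhs => rw [Complex.real_smul, ← Complex.conj_ofReal ε, ← map_mul]
    congr 1
    rw [kap, add_sub_cancel_left, add_sub_right_comm, Complex.real_smul, mul_sub, mul_inv,
      ← mul_assoc, mul_inv_cancel₀ hεc, one_mul]
  have hlim := tendsto_integral_filter_of_dominated_convergence (μ := (volume : Measure ℂ))
    (l := 𝓝[>] (0 : ℝ)) (F := F) (f := fun w => V b *
      fderiv ℝ eta w ((2 * π)⁻¹ • starRingEnd ℂ w⁻¹)) bound ?_ ?_ ?_ ?_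
  · rw [integral_const_mul, mul_comm] at hlim
    refine hlim.congr' ?_
    filter_upwards [self_mem_nhdsWithin] with ε hε using (heq ε hε).symm
  · refine Eventually.of_forall fun ε => Measurable.aestronglyMeasurable ?_
    have h1 := eta_contDiff.continuous_fderiv one_ne_zero
    simp only [hF, map_smul, smul_eq_mul, fderiv_Ev, ex, ey, kap]
    have h2 : ∀ e, Measurable fun w => fderiv ℝ eta w e := fun e =>
      measurable_fderiv_apply_const ℝ eta e
    fun_prop
  · filter_upwards [self_mem_nhdsWithin, nhdsWithin_le_nhds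
      (eventually_lt_nhds (show (0 : ℝ) < min 1 (‖b - a‖ / 4) by positivity))] with ε hε hε'
    rw [lt_min_iff] at hε'
    refine Eventually.of_forall fun w => ?_
    have hS0 : 0 ≤ S := (norm_nonneg _).trans (hS b (mem_closedBall_self (by norm_num)))
    by_cases hw : w ∈ closedBall (0 : ℂ) 2
    · simp only [bound, indicator_of_mem hw]
      rw [mem_closedBall_zero_iff] at hw
      by_cases hw1 : ‖w‖ < 1
      · simp only [hF, fderiv_eta_eq_zero (Or.inl hw1), zero_apply, mul_zero, norm_zero]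
        positivity
      rw [not_lt] at hw1
      have hεw : ‖ε • w‖ ≤ 2 * ε := by
        rw [norm_smul, Real.norm_of_nonneg (le_of_lt hε), mul_comm]
        exact mul_le_mul_of_nonneg_right hw (le_of_lt hε)
      rw [hF, norm_mul]
      refine mul_le_mul (hS _ ?_) ((ContinuousLinearMap.le_opNorm _ _).trans
        (mul_le_mul (hM w) ?_ (norm_nonneg _) hM0)) (norm_nonneg _) hS0
      · rw [mem_closedBall, dist_eq_norm, add_sub_cancel_left]
        linarith
      · rw [hkey ε hε, norm_smul, RCLike.norm_conj, Real.norm_of_nonneg (by positivity)]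
        refine mul_le_mul_of_nonneg_left ((norm_sub_le _ _).trans (add_le_add ?_ ?_))
          (by positivity)
        · rw [norm_inv]; exact inv_le_one_of_one_le₀ hw1
        · have hden : ‖b - a‖ / 2 ≤ ‖b - a + ε • w‖ := by
            have := norm_sub_le_norm_add (b - a) (ε • w)
            linarith
          rw [norm_mul, norm_inv, Complex.norm_real, Real.norm_of_nonneg (le_of_lt hε)]
          calc ε * ‖b - a + ε • w‖⁻¹ ≤ 1 * (‖b - a‖ / 2)⁻¹ :=
                mul_le_mul hε'.1.le (inv_anti₀ (by positivity) hden) (by positivity) zero_le_one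
            _ = 2 / ‖b - a‖ := by rw [one_mul, inv_div]
    · simp only [bound, indicator_of_notMem hw]
      rw [mem_closedBall_zero_iff, not_le] at hw
      simp [hF, fderiv_eta_eq_zero (Or.inr hw)]
  · exact (integrable_indicator_iff measurableSet_closedBall).2
      (integrableOn_const measure_closedBall_lt_top.ne)
  · refine Eventually.of_forall fun w => ?_
    have hid : Tendsto (fun ε : ℝ => ε) (𝓝[>] 0) (𝓝 0) := tendsto_id.mono_left nhdsWithin_le_nhds
    have h1 : Tendsto (fun ε : ℝ => V (b + ε • w)) (𝓝[>] 0) (𝓝 (V b)) := by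
      simpa [Function.comp_def] using
        (hV.tendsto _).comp ((tendsto_const_nhds (x := b)).add (hid.smul_const w))
    have h2 : Tendsto (fun ε : ℝ => (2 * π)⁻¹ • starRingEnd ℂ
        (w⁻¹ - (ε : ℂ) * (b - a + ε • w)⁻¹)) (𝓝[>] 0)
        (𝓝 ((2 * π)⁻¹ • starRingEnd ℂ w⁻¹)) := by
      have hh : ContinuousAt (fun ε : ℝ => (2 * π)⁻¹ • starRingEnd ℂ
          (w⁻¹ - (ε : ℂ) * (b - a + ε • w)⁻¹)) 0 := by
        have hne : b - a + (0 : ℝ) • w ≠ 0 := by simpa [sub_eq_zero] using hab.symm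
        fun_prop (disch := assumption)
      simpa using hh.tendsto.mono_left nhdsWithin_le_nhds
    refine h1.mul (((fderiv ℝ eta w).continuous.tendsto _).comp (h2.congr' ?_))
    filter_upwards [self_mem_nhdsWithin] with ε hε using (hkey ε hε w).symm

end Vale.Agent.P128.StreamAux
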