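import Vale.Agent.P128.Defs

/-!
# P128, piece H: Morrey estimate and integrals of singular powers in the plane
-/

open MeasureTheory Set Metric Filter
open scoped ENNReal Topology Real

noncomputable section

namespace Vale.Agent.P128.StreamAux

theorem norm_fderiv_sq_le (f : ℂ → ℝ) (z : ℂ) : ‖fderiv ℝ f z‖ ^ 2 ≤ gradSq f z := by
  have hb : ‖fderiv ℝ f z‖ ≤ Real.sqrt (gradSq f z) := by
    refine ContinuousLinearMap.opNorm_le_bound _ (Real.sqrt_nonneg _) fun w => ?_
    have hw : w = w.re • (1 : ℂ) + w.im • Complex.I := by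
      apply Complex.ext <;> simp
    have hL : fderiv ℝ f z w =
        w.re * fderiv ℝ f z 1 + w.im * fderiv ℝ f z Complex.I := by
      conv_lhs => rw [hw]
      rw [map_add, map_smul, map_smul, smul_eq_mul, smul_eq_mul]
    rw [hL, Real.norm_eq_abs, Complex.norm_eq_sqrt_sq_add_sq,
      ← Real.sqrt_mul (by unfold gradSq; positivity), ← Real.sqrt_sq_eq_abs]
    apply Real.sqrt_le_sqrt
    unfold gradSq
    nlinarith [sq_nonneg (w.re * fderiv ℝ f z Complex.I - w.im * fderiv ℝ f z 1)]
  have h0 : 0 ≤ gradSq f z := by unfold gradSq; positivity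
  nlinarith [Real.sq_sqrt h0, norm_nonneg (fderiv ℝ f z), Real.sqrt_nonneg (gradSq f z)]

theorem volume_ball_real (c : ℂ) {r : ℝ} (hr : 0 ≤ r) :
    volume (ball c r) = ENNReal.ofReal (π * r ^ 2) := by
  rw [Complex.volume_ball, ENNReal.ofReal_mul Real.pi_pos.le, ← ENNReal.ofReal_pow hr, mul_comm]
  congr 1
  rw [← NNReal.coe_real_pi, ENNReal.ofReal_coe_nnreal]

/-- Affine change of variables in the plane. -/
theorem lintegral_affine (g : ℂ → ℝ≥0∞) (hg : Measurable g) (a : ℂ) {t : ℝ} (ht : t ≠ 0) :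
    ∫⁻ z, g (a + t • z) = ENNReal.ofReal ((t ^ 2)⁻¹) * ∫⁻ w, g w := by
  calc ∫⁻ z, g (a + t • z) = ∫⁻ y, g (a + y) ∂(Measure.map (fun z : ℂ => t • z) volume) :=
        (lintegral_map (hg.comp (by fun_prop)) (by fun_prop)).symm
    _ = ENNReal.ofReal ((t ^ 2)⁻¹) * ∫⁻ w, g w := by
        rw [Measure.map_addHaar_smul _ ht, Complex.finrank_real_complex, lintegral_smul_measure,
          lintegral_add_left_eq_self g a, abs_of_nonneg (by positivity), smul_eq_mul]

/-- One-sided Morrey estimate, integrated over a ball. -/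
theorem morrey_ball {f : ℂ → ℝ} (hf : ContDiff ℝ 1 f)
    (hC : ∀ (c : ℂ) (r : ℝ), 0 < r →
      ∫⁻ z in ball c r, ENNReal.ofReal (gradSq f z) ≤ ENNReal.ofReal (2 * π * r))
    (x m : ℂ) (r : ℝ) (hr : 0 < r) (hx : x ∈ closedBall m r) :
    ∫⁻ z in ball m r, ENNReal.ofReal |f z - f x| ≤
      ENNReal.ofReal (6 * π * r ^ 2 * Real.sqrt r) := by
  have hcont : Continuous fun z => ‖fderiv ℝ f z‖ := (hf.continuous_fderiv one_ne_zero).norm
  set N : ℂ → ℝ≥0∞ := fun z => ENNReal.ofReal ‖fderiv ℝ f z‖ with hN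
  have hNm : Measurable N := ENNReal.measurable_ofReal.comp hcont.measurable
  have hseg : ∀ z ∈ ball m r, ENNReal.ofReal |f z - f x| ≤
      ∫⁻ t in Ioo (0 : ℝ) 1, ENNReal.ofReal (2 * r) * N (x + t • (z - x)) := by
    intro z hz
    have hd : ∀ t : ℝ, HasDerivAt (fun t => f (x + t • (z - x)))
        (fderiv ℝ f (x + t • (z - x)) (z - x)) t := by
      intro t
      have h1 : HasDerivAt (fun t : ℝ => x + t • (z - x)) (z - x) t := by
        simpa using ((hasDerivAt_id t).smul_const (z - x)).const_add x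
      exact ((hf.differentiable one_ne_zero) _).hasFDerivAt.comp_hasDerivAt t h1
    have hcd : Continuous fun t : ℝ => fderiv ℝ f (x + t • (z - x)) (z - x) :=
      ((hf.continuous_fderiv one_ne_zero).comp (by fun_prop)).clm_apply continuous_const
    have hftc := intervalIntegral.integral_eq_sub_of_hasDerivAt (fun t _ => hd t)
      (hcd.intervalIntegrable 0 1)
    have hle : ‖z - x‖ ≤ 2 * r := by
      have h1 := mem_ball.1 hz
      have h2 := mem_closedBall.1 hx
      have h3 := dist_triangle_right z x m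
      rw [dist_eq_norm z x] at h3
      linarith
    simp only [one_smul, zero_smul, add_zero, add_sub_cancel] at hftc
    calc ENNReal.ofReal |f z - f x|
        = ‖∫ t in Ioo (0 : ℝ) 1, fderiv ℝ f (x + t • (z - x)) (z - x)‖ₑ := by
          rw [← integral_Ioc_eq_integral_Ioo, ← intervalIntegral.integral_of_le zero_le_one,
            hftc, Real.enorm_eq_ofReal_abs]
      _ ≤ ∫⁻ t in Ioo (0 : ℝ) 1, ‖fderiv ℝ f (x + t • (z - x)) (z - x)‖ₑ :=
          enorm_integral_le_lintegral_enorm _
      _ ≤ _ := by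
          refine lintegral_mono fun t => ?_
          simp only [hN]
          rw [← ofReal_norm, ← ENNReal.ofReal_mul (by positivity)]
          refine ENNReal.ofReal_le_ofReal (((fderiv ℝ f _).le_opNorm (z - x)).trans ?_)
          rw [mul_comm]
          exact mul_le_mul_of_nonneg_right hle (norm_nonneg _)
  have hswap : ∫⁻ z in ball m r, ENNReal.ofReal |f z - f x| ≤
      ∫⁻ t in Ioo (0 : ℝ) 1, ∫⁻ z in ball m r,
        ENNReal.ofReal (2 * r) * N (x + t • (z - x)) := by
    refine (setLIntegral_mono' measurableSet_ball hseg).trans (le_of_eq ?_)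
    refine lintegral_lintegral_swap (Measurable.aemeasurable ?_)
    exact (hNm.comp (by fun_prop)).const_mul _
  refine hswap.trans ?_
  have hin : ∀ t ∈ Ioo (0 : ℝ) 1, ∫⁻ z in ball m r,
      ENNReal.ofReal (2 * r) * N (x + t • (z - x)) ≤
      ENNReal.ofReal (3 * π * r ^ 2 * Real.sqrt r * (Real.sqrt t)⁻¹) := by
    intro t ht
    have ht0 := ht.1
    set B : Set ℂ := ball (x + t • (m - x)) (t * r) with hB
    set l := Real.sqrt (t * r) with hl
    have hl0 : 0 < l := Real.sqrt_pos.2 (mul_pos ht0 hr)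
    have hstep : ∫⁻ z in ball m r, N (x + t • (z - x)) =
        ENNReal.ofReal ((t ^ 2)⁻¹) * ∫⁻ w in B, N w := by
      rw [← lintegral_indicator measurableSet_ball, ← lintegral_indicator measurableSet_ball,
        ← lintegral_affine _ (hNm.indicator measurableSet_ball) (x - t • x) ht0.ne']
      refine lintegral_congr fun z => ?_
      have he : x - t • x + t • z = x + t • (z - x) := by module
      have hd : dist (x + t • (z - x)) (x + t • (m - x)) = t * dist z m := by
        rw [dist_eq_norm, dist_eq_norm,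
          show x + t • (z - x) - (x + t • (m - x)) = t • (z - m) by module, norm_smul,
          Real.norm_of_nonneg ht0.le]
      by_cases hz : z ∈ ball m r
      · rw [indicator_of_mem hz, indicator_of_mem]
        · rw [he]
        · rw [mem_ball] at hz
          rw [he, mem_ball, hd]
          exact mul_lt_mul_of_pos_left hz ht0
      · rw [indicator_of_notMem hz, indicator_of_notMem]
        rw [mem_ball, not_lt] at hz
        rw [he, mem_ball, hd, not_lt]
        exact mul_le_mul_of_nonneg_left hz ht0.le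
    have hB' : ∫⁻ w in B, N w ≤ ENNReal.ofReal (3 * π / 2 * (t * r) * l) := by
      calc ∫⁻ w in B, N w ≤
            ∫⁻ w in B, (ENNReal.ofReal (l / 2) * ENNReal.ofReal (gradSq f w) +
              ENNReal.ofReal (1 / (2 * l))) := by
            refine lintegral_mono fun w => ?_
            simp only [hN]
            rw [← ENNReal.ofReal_mul (by positivity), ← ENNReal.ofReal_add
              (mul_nonneg (by positivity) (by unfold gradSq; positivity)) (by positivity)]
            refine ENNReal.ofReal_le_ofReal ?_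
            have h2 := norm_fderiv_sq_le f w
            rw [div_mul_eq_mul_div, div_add_div _ _ (by norm_num) (by positivity),
              le_div_iff₀ (by positivity)]
            nlinarith [sq_nonneg (l * ‖fderiv ℝ f w‖ - 1),
              mul_le_mul_of_nonneg_left h2 (sq_nonneg l)]
        _ = ENNReal.ofReal (l / 2) * (∫⁻ w in B, ENNReal.ofReal (gradSq f w)) +
              ENNReal.ofReal (1 / (2 * l)) * volume B := by
            rw [lintegral_add_right _ measurable_const, setLIntegral_const,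
              lintegral_const_mul' _ _ ENNReal.ofReal_ne_top]
        _ ≤ ENNReal.ofReal (l / 2) * ENNReal.ofReal (2 * π * (t * r)) +
              ENNReal.ofReal (1 / (2 * l)) * ENNReal.ofReal (π * (t * r) ^ 2) :=
            add_le_add (mul_le_mul_right (hC _ _ (mul_pos ht0 hr)) _)
              (le_of_eq (by rw [hB, volume_ball_real _ (mul_pos ht0 hr).le]))
        _ = _ := by
            rw [← ENNReal.ofReal_mul (by positivity), ← ENNReal.ofReal_mul (by positivity),
              ← ENNReal.ofReal_add (by positivity) (by positivity)]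
            congr 1
            have hl2 : l ^ 2 = t * r := Real.sq_sqrt (by positivity)
            field_simp
            rw [← hl2]; ring
    rw [lintegral_const_mul' _ _ ENNReal.ofReal_ne_top, hstep]
    calc _ ≤ ENNReal.ofReal (2 * r) * (ENNReal.ofReal ((t ^ 2)⁻¹) *
          ENNReal.ofReal (3 * π / 2 * (t * r) * l)) := by gcongr
      _ = _ := by
        rw [← ENNReal.ofReal_mul (by positivity), ← ENNReal.ofReal_mul (by positivity)]
        congr 1
        rw [hl, Real.sqrt_mul ht0.le]
        have hs : Real.sqrt t ^ 2 = t := Real.sq_sqrt ht0.le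
        have hsp : 0 < Real.sqrt t := Real.sqrt_pos.2 ht0
        field_simp
        rw [hs]
  calc _ ≤ ∫⁻ t in Ioo (0 : ℝ) 1,
        ENNReal.ofReal (3 * π * r ^ 2 * Real.sqrt r * (Real.sqrt t)⁻¹) :=
        setLIntegral_mono' measurableSet_Ioo hin
    _ = ENNReal.ofReal (6 * π * r ^ 2 * Real.sqrt r) := by
        have hint : IntegrableOn (fun t : ℝ => t ^ (-(1 / 2) : ℝ)) (Ioo 0 1) :=
          ((intervalIntegrable_iff_integrableOn_Ioc_of_le zero_le_one).1
            (intervalIntegral.intervalIntegrable_rpow' (by norm_num))).mono_set Ioo_subset_Ioc_self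
        have hval : ∫ t in Ioo (0 : ℝ) 1, t ^ (-(1 / 2) : ℝ) = 2 := by
          rw [← integral_Ioc_eq_integral_Ioo, ← intervalIntegral.integral_of_le zero_le_one,
            integral_rpow (Or.inl (by norm_num))]
          norm_num
        have heq : EqOn (fun t : ℝ => 3 * π * r ^ 2 * Real.sqrt r * (Real.sqrt t)⁻¹)
            (fun t => 3 * π * r ^ 2 * Real.sqrt r * t ^ (-(1 / 2) : ℝ)) (Ioo 0 1) :=
          fun t ht => by
            simp only
            rw [Real.rpow_neg ht.1.le, Real.sqrt_eq_rpow t]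
        rw [setLIntegral_congr_fun measurableSet_Ioo
          (fun t ht => congrArg ENNReal.ofReal (heq ht)),
          ← ofReal_integral_eq_lintegral_ofReal (hint.const_mul _)
            ((ae_restrict_iff' measurableSet_Ioo).2 (Eventually.of_forall fun t ht => by
              have := ht.1
              positivity)),
          integral_const_mul, hval]
        congr 1; ring

/-- Morrey's estimate for energy growing linearly. -/
theorem morrey {f : ℂ → ℝ} (hf : ContDiff ℝ 1 f)
    (hC : ∀ (c : ℂ) (r : ℝ), 0 < r →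
      ∫⁻ z in ball c r, ENNReal.ofReal (gradSq f z) ≤ ENNReal.ofReal (2 * π * r))
    (x y : ℂ) : |f x - f y| ≤ 12 * Real.sqrt ‖x - y‖ := by
  rcases eq_or_ne x y with rfl | hne
  · simp
  set r := ‖x - y‖ with hrd
  have hr : 0 < r := norm_pos_iff.2 (sub_ne_zero.2 hne)
  have hx : x ∈ closedBall y r := by rw [mem_closedBall, dist_eq_norm]
  have hy : y ∈ closedBall y r := by simp [hr.le]
  have h1 := morrey_ball hf hC x y r hr hx
  have h2 := morrey_ball hf hC y y r hr hy
  have key : ENNReal.ofReal |f x - f y| * volume (ball y r) ≤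
      ENNReal.ofReal (6 * π * r ^ 2 * Real.sqrt r) +
        ENNReal.ofReal (6 * π * r ^ 2 * Real.sqrt r) := by
    refine le_trans ?_ (add_le_add h1 h2)
    rw [← lintegral_add_left (by
      have := hf.continuous
      fun_prop : Measurable fun z => ENNReal.ofReal |f z - f x|), ← setLIntegral_const]
    refine lintegral_mono fun z => ?_
    rw [← ENNReal.ofReal_add (abs_nonneg _) (abs_nonneg _)]
    refine ENNReal.ofReal_le_ofReal ?_
    have := abs_sub_le (f x) (f z) (f y)
    rw [abs_sub_comm (f x) (f z)] at this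
    exact this
  rw [volume_ball_real _ hr.le, ← ENNReal.ofReal_mul (abs_nonneg _),
    ← ENNReal.ofReal_add (by positivity) (by positivity),
    ENNReal.ofReal_le_ofReal_iff (by positivity)] at key
  have hp : 0 < π * r ^ 2 := by positivity
  nlinarith

/-- `∫_{B(0,r)} |z|^{-3/2} ≤ 4π √r`. -/
theorem lintegral_singular (w : ℂ) (r : ℝ) (hr : 0 < r) :
    ∫⁻ z in ball w r, ENNReal.ofReal (‖z - w‖ ^ (-(3 / 2) : ℝ)) ≤
      ENNReal.ofReal (4 * π * Real.sqrt r) := by
  set F : ℂ → ℝ≥0∞ :=
    (ball (0 : ℂ) r).indicator fun z => ENNReal.ofReal (‖z‖ ^ (-(3 / 2) : ℝ)) with hF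
  calc ∫⁻ z in ball w r, ENNReal.ofReal (‖z - w‖ ^ (-(3 / 2) : ℝ))
      = ∫⁻ z, F (z - w) := by
        rw [← lintegral_indicator measurableSet_ball]
        refine lintegral_congr fun z => ?_
        simp only [hF, indicator, mem_ball, dist_eq_norm, sub_zero]
    _ = ∫⁻ z, F z := lintegral_sub_right_eq_self F w
    _ = ∫⁻ p in polarCoord.target, ENNReal.ofReal p.1 • F (Complex.polarCoord.symm p) :=
        (Complex.lintegral_comp_polarCoord_symm F).symm
    _ ≤ ∫⁻ p in Ioo (0 : ℝ) r ×ˢ Ioo (-π) π, ENNReal.ofReal (p.1 ^ (-(1 / 2) : ℝ)) := by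
        rw [← lintegral_indicator (measurableSet_Ioo.prod measurableSet_Ioo),
          ← lintegral_indicator polarCoord.open_target.measurableSet]
        refine lintegral_mono fun p => ?_
        by_cases hp : p ∈ polarCoord.target
        · rw [indicator_of_mem hp]
          rw [polarCoord_target, mem_prod, mem_Ioi] at hp
          have hn : ‖Complex.polarCoord.symm p‖ = p.1 := by
            rw [Complex.norm_polarCoord_symm, abs_of_pos hp.1]
          by_cases hb : p.1 < r
          · rw [indicator_of_mem (show p ∈ Ioo (0 : ℝ) r ×ˢ Ioo (-π) π from ⟨⟨hp.1, hb⟩, hp.2⟩),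
              hF, indicator_of_mem (by rw [mem_ball_zero_iff, hn]; exact hb), hn, smul_eq_mul,
              ← ENNReal.ofReal_mul hp.1.le]
            refine ENNReal.ofReal_le_ofReal (le_of_eq ?_)
            conv_lhs => arg 1; rw [← Real.rpow_one p.1]
            rw [← Real.rpow_add hp.1]
            norm_num
          · rw [hF, indicator_of_notMem (by rw [mem_ball_zero_iff, hn]; exact hb)]
            simp
        · rw [indicator_of_notMem hp]
          exact zero_le
    _ = (∫⁻ s in Ioo (0 : ℝ) r, ENNReal.ofReal (s ^ (-(1 / 2) : ℝ))) *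
          volume (Ioo (-π) π) := by
        rw [Measure.volume_eq_prod, ← Measure.prod_restrict, lintegral_prod _ (by fun_prop)]
        simp only [lintegral_const, Measure.restrict_apply_univ]
        exact lintegral_mul_const _ (by fun_prop)
    _ ≤ _ := by
        have hint : IntegrableOn (fun t : ℝ => t ^ (-(1 / 2) : ℝ)) (Ioo 0 r) :=
          ((intervalIntegrable_iff_integrableOn_Ioc_of_le hr.le).1
            (intervalIntegral.intervalIntegrable_rpow' (by norm_num))).mono_set Ioo_subset_Ioc_self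
        rw [← ofReal_integral_eq_lintegral_ofReal hint
          ((ae_restrict_iff' measurableSet_Ioo).2
            (Eventually.of_forall fun t ht => Real.rpow_nonneg ht.1.le _)),
          ← integral_Ioc_eq_integral_Ioo, ← intervalIntegral.integral_of_le hr.le,
          integral_rpow (Or.inl (by norm_num)), Real.volume_Ioo,
          ← ENNReal.ofReal_mul' (by linarith [Real.pi_pos])]
        refine ENNReal.ofReal_le_ofReal (le_of_eq ?_)
        rw [Real.sqrt_eq_rpow]
        norm_num
        ring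

/-- The basic bounds for the potential of `|z|^{-3/2}` on a ball. -/
theorem singular_ball_le (c w : ℂ) (ρ : ℝ) (hρ : 0 < ρ) :
    (∫⁻ z in ball c ρ, ENNReal.ofReal (‖z - w‖ ^ (-(3 / 2) : ℝ)) ≤
      ENNReal.ofReal (8 * π * Real.sqrt ρ)) ∧
    (w ≠ c → ∫⁻ z in ball c ρ, ENNReal.ofReal (‖z - w‖ ^ (-(3 / 2) : ℝ)) ≤
      ENNReal.ofReal (16 * π * ρ ^ (5 / 4 : ℝ) * ‖w - c‖ ^ (-(3 / 4) : ℝ))) := by
  rcases le_or_gt ‖w - c‖ (2 * ρ) with h | h
  · have h1 : ∫⁻ z in ball c ρ, ENNReal.ofReal (‖z - w‖ ^ (-(3 / 2) : ℝ)) ≤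
        ENNReal.ofReal (8 * π * Real.sqrt ρ) := by
      refine (lintegral_mono_set (ball_subset_ball' ?_)).trans
        ((lintegral_singular w (4 * ρ) (by positivity)).trans
          (ENNReal.ofReal_le_ofReal (le_of_eq ?_)))
      · rw [dist_comm, dist_eq_norm]; linarith
      · rw [Real.sqrt_mul (by norm_num), show (4 : ℝ) = 2 ^ 2 by norm_num,
          Real.sqrt_sq (by norm_num)]
        ring
    refine ⟨h1, fun hne => h1.trans (ENNReal.ofReal_le_ofReal ?_)⟩
    have hd : 0 < ‖w - c‖ := norm_pos_iff.2 (sub_ne_zero.2 hne)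
    have hge : (2 * ρ) ^ (-(3 / 4) : ℝ) ≤ ‖w - c‖ ^ (-(3 / 4) : ℝ) :=
      Real.rpow_le_rpow_of_nonpos hd h (by norm_num)
    have h2 : (1 / 2 : ℝ) ≤ 2 ^ (-(3 / 4) : ℝ) := by
      rw [show (1 / 2 : ℝ) = 2 ^ (-1 : ℝ) by norm_num [Real.rpow_neg_one]]
      exact Real.rpow_le_rpow_of_exponent_le (by norm_num) (by norm_num)
    have h4 : ρ ^ (5 / 4 : ℝ) * ρ ^ (-(3 / 4) : ℝ) = Real.sqrt ρ := by
      rw [← Real.rpow_add hρ, Real.sqrt_eq_rpow]; norm_num
    rw [Real.mul_rpow (by norm_num) hρ.le] at hge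
    calc 8 * π * Real.sqrt ρ = 16 * π * ρ ^ (5 / 4 : ℝ) * (1 / 2 * ρ ^ (-(3 / 4) : ℝ)) := by
          rw [← h4]; ring
      _ ≤ _ := mul_le_mul_of_nonneg_left
          ((mul_le_mul_of_nonneg_right h2 (Real.rpow_nonneg hρ.le _)).trans hge) (by positivity)
  · have hd : 0 < ‖w - c‖ := lt_trans (by positivity) h
    have hb : ∫⁻ z in ball c ρ, ENNReal.ofReal (‖z - w‖ ^ (-(3 / 2) : ℝ)) ≤
        ENNReal.ofReal (π * ρ ^ 2 * (‖w - c‖ / 2) ^ (-(3 / 2) : ℝ)) := by
      calc _ ≤ ∫⁻ _ in ball c ρ, ENNReal.ofReal ((‖w - c‖ / 2) ^ (-(3 / 2) : ℝ)) := by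
            refine setLIntegral_mono measurable_const fun z hz => ENNReal.ofReal_le_ofReal ?_
            refine Real.rpow_le_rpow_of_nonpos (by positivity) ?_ (by norm_num)
            rw [mem_ball, dist_eq_norm] at hz
            have h3 := norm_sub_le_norm_sub_add_norm_sub w z c
            rw [norm_sub_rev w z] at h3
            linarith
        _ = _ := by
            rw [setLIntegral_const, volume_ball_real _ hρ.le,
              ← ENNReal.ofReal_mul (by positivity)]
            congr 1; ring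
    refine ⟨hb.trans (ENNReal.ofReal_le_ofReal ?_), fun _ => hb.trans (ENNReal.ofReal_le_ofReal ?_)⟩
    · have h5 : (‖w - c‖ / 2) ^ (-(3 / 2) : ℝ) ≤ ρ ^ (-(3 / 2) : ℝ) :=
        Real.rpow_le_rpow_of_nonpos hρ (by linarith) (by norm_num)
      have h6 : ρ ^ 2 * ρ ^ (-(3 / 2) : ℝ) = Real.sqrt ρ := by
        rw [← Real.rpow_natCast ρ 2, ← Real.rpow_add hρ, Real.sqrt_eq_rpow]; norm_num
      calc π * ρ ^ 2 * (‖w - c‖ / 2) ^ (-(3 / 2) : ℝ) ≤ π * ρ ^ 2 * ρ ^ (-(3 / 2) : ℝ) := by
            gcongr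
        _ = π * Real.sqrt ρ := by rw [mul_assoc, h6]
        _ ≤ 8 * π * Real.sqrt ρ := by nlinarith [Real.pi_pos, Real.sqrt_nonneg ρ]
    · have e : (‖w - c‖ / 2) ^ (-(3 / 2) : ℝ) =
          ‖w - c‖ ^ (-(3 / 4) : ℝ) * ‖w - c‖ ^ (-(3 / 4) : ℝ) * 2 ^ (3 / 2 : ℝ) := by
        rw [Real.div_rpow hd.le (by norm_num), ← Real.rpow_add hd,
          Real.rpow_neg (by norm_num : (0 : ℝ) ≤ 2), div_inv_eq_mul]
        norm_num
      have h7 : ‖w - c‖ ^ (-(3 / 4) : ℝ) ≤ ρ ^ (-(3 / 4) : ℝ) :=
        Real.rpow_le_rpow_of_nonpos hρ (by linarith) (by norm_num)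
      have h8 : (2 : ℝ) ^ (3 / 2 : ℝ) ≤ 4 := by
        calc (2 : ℝ) ^ (3 / 2 : ℝ) ≤ 2 ^ (2 : ℝ) :=
              Real.rpow_le_rpow_of_exponent_le (by norm_num) (by norm_num)
          _ = 4 := by norm_num
      have h9 : ρ ^ 2 * ρ ^ (-(3 / 4) : ℝ) = ρ ^ (5 / 4 : ℝ) := by
        rw [← Real.rpow_natCast ρ 2, ← Real.rpow_add hρ]; norm_num
      rw [e]
      calc _ ≤ π * ρ ^ 2 * (ρ ^ (-(3 / 4) : ℝ) * ‖w - c‖ ^ (-(3 / 4) : ℝ) * 4) := by
            gcongr
        _ = 4 * π * ρ ^ (5 / 4 : ℝ) * ‖w - c‖ ^ (-(3 / 4) : ℝ) := by rw [← h9]; ring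
        _ ≤ _ := by
            have : 0 ≤ π * ρ ^ (5 / 4 : ℝ) * ‖w - c‖ ^ (-(3 / 4) : ℝ) := by positivity
            linarith

end Vale.Agent.P128.StreamAux
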