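import Vale.Agent.P128.Spec
import Vale.Agent.P128.Basic
import Vale.Agent.P128.Stream.Morrey

/-!
# P128, piece H: the stream potential

Mollify the rotated gradient (closed by the Euler-Lagrange equation), integrate it, and pass to the
limit with Morrey's estimate.
-/

open MeasureTheory Set Metric Filter
open scoped ENNReal Topology Real Convolution

noncomputable section

namespace Vale.Agent.P128.StreamAux

/-- The gradient component `∂_e u` on `Kᶜ`, zero on `K`. -/
def grd (K : Set ℂ) (u : ℂ → ℝ) (e z : ℂ) : ℝ := Kᶜ.indicator (fun z => fderiv ℝ u z e) z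

/-- The bump functions used for mollification. -/
def bump (n : ℕ) : ContDiffBump (0 : ℂ) where
  rIn := ((n : ℝ) + 1)⁻¹ / 2
  rOut := ((n : ℝ) + 1)⁻¹
  rIn_pos := by positivity
  rIn_lt_rOut := by
    have : (0 : ℝ) < ((n : ℝ) + 1)⁻¹ := by positivity
    linarith

/-- The mollifier. -/
def ker (n : ℕ) : ℂ → ℝ := (bump n).normed volume

theorem ker_nonneg (n : ℕ) (z : ℂ) : 0 ≤ ker n z := (bump n).nonneg_normed z

theorem ker_contDiff (n : ℕ) : ContDiff ℝ 1 (ker n) := (bump n).contDiff_normed

theorem ker_compact (n : ℕ) : HasCompactSupport (ker n) := (bump n).hasCompactSupport_normed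

theorem integral_ker (n : ℕ) (z : ℂ) : ∫ w, ker n (z - w) = 1 := by
  rw [integral_sub_left_eq_self (ker n) volume z]
  exact (bump n).integral_normed

theorem ker_eq_zero (n : ℕ) {z : ℂ} (hz : (bump n).rOut ≤ ‖z‖) : ker n z = 0 := by
  by_contra h
  have : z ∈ Function.support (ker n) := h
  rw [ker, (bump n).support_normed_eq, mem_ball_zero_iff] at this
  linarith

theorem tendsto_rOut : Tendsto (fun n => (bump n).rOut) atTop (𝓝 0) := by
  simpa [bump, one_div] using tendsto_one_div_add_atTop_nhds_zero_nat (𝕜 := ℝ)

/-- Mollification. -/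
def mol (n : ℕ) (f : ℂ → ℝ) : ℂ → ℝ :=
  MeasureTheory.convolution f (ker n) (ContinuousLinearMap.mul ℝ ℝ) volume

theorem mol_apply (n : ℕ) (f : ℂ → ℝ) (z : ℂ) : mol n f z = ∫ w, f w * ker n (z - w) := rfl

theorem integrable_mul_ker {f : ℂ → ℝ} (hf : LocallyIntegrable f) (n : ℕ) (z : ℂ) :
    Integrable fun w => f w * ker n (z - w) := by
  have hc : Continuous fun w => ker n (z - w) :=
    (ker_contDiff n).continuous.comp (by fun_prop)
  have hs : HasCompactSupport fun w => ker n (z - w) :=
    (ker_compact n).comp_homeomorph (Homeomorph.subLeft z)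
  have h := hf.integrable_smul_left_of_hasCompactSupport hc hs
  exact h.congr (Eventually.of_forall fun w => mul_comm _ _)

/-- A weighted average is close to a value to which the function is close. -/
theorem abs_avg_sub_le {f q : ℂ → ℝ} {c ε : ℝ} (hq : ∀ w, 0 ≤ q w) (hi : Integrable q)
    (h1 : ∫ w, q w = 1) (hfq : Integrable fun w => f w * q w)
    (h : ∀ w, q w ≠ 0 → |f w - c| ≤ ε) : |(∫ w, f w * q w) - c| ≤ ε := by
  have e : (∫ w, f w * q w) - c = ∫ w, (f w - c) * q w := by
    simp only [sub_mul]
    rw [integral_sub hfq (hi.const_mul c), integral_const_mul, h1, mul_one]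
  rw [e]
  calc |∫ w, (f w - c) * q w| ≤ ∫ w, |(f w - c) * q w| := abs_integral_le_integral_abs
    _ ≤ ∫ w, ε * q w := by
        refine integral_mono_of_nonneg (Eventually.of_forall fun w => abs_nonneg _)
          (hi.const_mul ε) (Eventually.of_forall fun w => ?_)
        by_cases hw : q w = 0
        · simp [hw]
        · simp only [abs_mul, abs_of_nonneg (hq w)]
          exact mul_le_mul_of_nonneg_right (h w hw) (hq w)
    _ = ε := by rw [integral_const_mul, h1, mul_one]

theorem integrable_ker (n : ℕ) (z : ℂ) : Integrable fun w => ker n (z - w) := by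
  simpa using integrable_mul_ker (locallyIntegrable_const (1 : ℝ)) n z

theorem mol_sub_le {f : ℂ → ℝ} (hf : LocallyIntegrable f) (n : ℕ) (z : ℂ) {c ε : ℝ}
    (h : ∀ w ∈ ball z (bump n).rOut, |f w - c| ≤ ε) : |mol n f z - c| ≤ ε := by
  rw [mol_apply]
  refine abs_avg_sub_le (fun w => ker_nonneg n _) (integrable_ker n z) (integral_ker n z)
    (integrable_mul_ker hf n z) fun w hw => h w ?_
  by_contra hb
  rw [mem_ball, not_lt, dist_comm, dist_eq_norm] at hb
  exact hw (ker_eq_zero n hb)

theorem hasFDerivAt_mol {f : ℂ → ℝ} (hf : LocallyIntegrable f) (n : ℕ) (z : ℂ) :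
    HasFDerivAt (mol n f)
      ((f ⋆[(ContinuousLinearMap.mul ℝ ℝ).precompR ℂ, volume] fderiv ℝ (ker n)) z) z :=
  (ker_compact n).hasFDerivAt_convolution_right _ hf (ker_contDiff n) z

theorem fderiv_mol {f : ℂ → ℝ} (hf : LocallyIntegrable f) (n : ℕ) (z e : ℂ) :
    fderiv ℝ (mol n f) z e = ∫ w, f w * fderiv ℝ (ker n) (z - w) e := by
  rw [(hasFDerivAt_mol hf n z).fderiv,
    convolution_precompR_apply (ContinuousLinearMap.mul ℝ ℝ) hf ((ker_compact n).fderiv ℝ)
      ((ker_contDiff n).continuous_fderiv one_ne_zero)]
  rfl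

theorem integrable_mul_fderiv_ker {f : ℂ → ℝ} (hf : LocallyIntegrable f) (n : ℕ) (z e : ℂ) :
    Integrable fun w => f w * fderiv ℝ (ker n) (z - w) e := by
  have hc : Continuous fun w => fderiv ℝ (ker n) (z - w) e :=
    (((ker_contDiff n).continuous_fderiv one_ne_zero).comp (by fun_prop)).clm_apply
      continuous_const
  have hs : HasCompactSupport fun w => fderiv ℝ (ker n) (z - w) e :=
    ((ker_compact n).fderiv_apply (𝕜 := ℝ) e).comp_homeomorph (Homeomorph.subLeft z)
  exact (hf.integrable_smul_left_of_hasCompactSupport hc hs).congr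
    (Eventually.of_forall fun w => mul_comm _ _)

variable {K : Set ℂ} {u : ℂ → ℝ}

theorem measurable_grd (h : IsGM K u) (e : ℂ) : Measurable (grd K u e) :=
  (measurable_fderiv_apply_const ℝ u e).indicator h.isClosed.measurableSet.compl

theorem grd_sq (z : ℂ) : grd K u 1 z ^ 2 + grd K u Complex.I z ^ 2 =
    Kᶜ.indicator (gradSq u) z := by
  by_cases hz : z ∈ Kᶜ <;> simp [grd, gradSq, indicator, hz]

theorem lintegral_grd_sq (h : IsGM K u) (c : ℂ) (r : ℝ) :
    ∫⁻ z in ball c r, ENNReal.ofReal (grd K u 1 z ^ 2 + grd K u Complex.I z ^ 2) =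
      dirichlet K u (ball c r) := by
  simp only [grd_sq]
  rw [dirichlet, sdiff_eq, inter_comm,
    ← Measure.restrict_restrict h.isClosed.measurableSet.compl,
    ← lintegral_indicator h.isClosed.measurableSet.compl]
  refine lintegral_congr fun z => ?_
  by_cases hz : z ∈ Kᶜ <;> simp [indicator, hz]

theorem energy_ball_le (hG : GrowthSpec) (h : IsGM K u) (c : ℂ) {r : ℝ} (hr : 0 < r) :
    dirichlet K u (ball c r) ≤ ENNReal.ofReal (2 * π * r) := by
  obtain ⟨-, h0, hle⟩ := (hG K u h c).1 r hr
  have h2 : dir K u c r ≤ 2 * π * r := by linarith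
  exact (ENNReal.le_ofReal_iff_toReal_le (h.dirichlet_lt_top c r).ne
    (by positivity)).2 h2

theorem time_ball_le (hG : GrowthSpec) (h : IsGM K u) (c : ℂ) {r : ℝ} (hr : 0 < r) :
    μH[1] (K ∩ ball c r) ≤ ENNReal.ofReal (2 * π * r) := by
  obtain ⟨h0, -, hle⟩ := (hG K u h c).1 r hr
  have h2 : len K c r ≤ 2 * π * r := by linarith
  exact (ENNReal.le_ofReal_iff_toReal_le (h.length_lt_top c r).ne
    (by positivity)).2 h2

theorem integrableOn_grd_sq (h : IsGM K u) (e : ℂ) (he : e = 1 ∨ e = Complex.I) (c : ℂ) (r : ℝ) :
    IntegrableOn (fun z => grd K u e z ^ 2) (ball c r) := by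
  refine ⟨((measurable_grd h e).pow_const 2).aestronglyMeasurable, ?_⟩
  refine lt_of_le_of_lt (le_trans (lintegral_mono fun z => ?_) (lintegral_grd_sq h c r).le)
    (h.dirichlet_lt_top c r)
  rw [Real.enorm_eq_ofReal_abs]
  refine ENNReal.ofReal_le_ofReal ?_
  rw [abs_of_nonneg (sq_nonneg _)]
  rcases he with rfl | rfl <;> nlinarith [sq_nonneg (grd K u 1 z), sq_nonneg (grd K u Complex.I z)]

theorem locallyIntegrable_grd_sq (h : IsGM K u) (e : ℂ) (he : e = 1 ∨ e = Complex.I) :
    LocallyIntegrable fun z => grd K u e z ^ 2 := fun z =>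
  ⟨ball z 1, ball_mem_nhds z one_pos, integrableOn_grd_sq h e he z 1⟩

theorem locallyIntegrable_grd (h : IsGM K u) (e : ℂ) (he : e = 1 ∨ e = Complex.I) :
    LocallyIntegrable (grd K u e) := by
  intro z
  refine ⟨ball z 1, ball_mem_nhds z one_pos, ?_⟩
  have hc : IntegrableOn (fun _ : ℂ => (1 : ℝ)) (ball z 1) :=
    integrableOn_const measure_ball_lt_top.ne
  refine Integrable.mono' ((hc.add (integrableOn_grd_sq h e he z 1)))
    (measurable_grd h e).aestronglyMeasurable (Eventually.of_forall fun w => ?_)
  simp only [Pi.add_apply, Real.norm_eq_abs]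
  nlinarith [sq_nonneg (|grd K u e w| - 1), sq_abs (grd K u e w)]

theorem continuousOn_grd (h : IsGM K u) (e : ℂ) : ContinuousOn (grd K u e) Kᶜ :=
  (((h.contDiffOn 1).continuousOn_fderiv_of_isOpen h.isOpen_compl le_rfl).clm_apply
    continuousOn_const).congr fun _ hz => indicator_of_mem hz _

theorem mol_tendsto (h : IsGM K u) (e : ℂ) (he : e = 1 ∨ e = Complex.I) :
    TendstoLocallyUniformlyOn (fun n => mol n (grd K u e)) (grd K u e) atTop Kᶜ := by
  rw [Metric.tendstoLocallyUniformlyOn_iff]
  intro ε hε z hz
  obtain ⟨δ, hδ, hδ'⟩ := Metric.continuousAt_iff.1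
    ((continuousOn_grd h e).continuousAt (h.isOpen_compl.mem_nhds hz)) (ε / 3) (by positivity)
  refine ⟨ball z (δ / 2), nhdsWithin_le_nhds (ball_mem_nhds z (by positivity)), ?_⟩
  filter_upwards [tendsto_rOut.eventually (eventually_lt_nhds (half_pos hδ))] with n hn y hy
  rw [Real.dist_eq, abs_sub_comm]
  have h1 : |mol n (grd K u e) y - grd K u e z| ≤ ε / 3 := by
    refine mol_sub_le (locallyIntegrable_grd h e he) n y fun w hw => le_of_lt ?_
    rw [← Real.dist_eq]
    exact hδ' (by linarith [dist_triangle w y z, mem_ball.1 hw, mem_ball.1 hy])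
  have h2 : |grd K u e y - grd K u e z| < ε / 3 := by
    rw [← Real.dist_eq]; exact hδ' (by linarith [mem_ball.1 hy])
  calc |mol n (grd K u e) y - grd K u e y|
      ≤ |mol n (grd K u e) y - grd K u e z| + |grd K u e z - grd K u e y| := abs_sub_le _ _ _
    _ < ε := by rw [abs_sub_comm (grd K u e z)]; linarith

theorem mol_sq_le {f : ℂ → ℝ} (hf : LocallyIntegrable f)
    (hf2 : LocallyIntegrable fun w => f w ^ 2) (n : ℕ) (z : ℂ) :
    mol n f z ^ 2 ≤ ∫ w, f w ^ 2 * ker n (z - w) := by
  rw [mol_apply]
  set m := ∫ w, f w * ker n (z - w) with hm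
  have i1 := integrable_mul_ker hf n z
  have i2 := integrable_mul_ker hf2 n z
  have i0 := integrable_ker n z
  have h0 : 0 ≤ ∫ w, (f w - m) ^ 2 * ker n (z - w) :=
    integral_nonneg fun w => mul_nonneg (sq_nonneg _) (ker_nonneg n _)
  have e : (fun w => (f w - m) ^ 2 * ker n (z - w)) = fun w =>
      f w ^ 2 * ker n (z - w) - 2 * m * (f w * ker n (z - w)) + m ^ 2 * ker n (z - w) := by
    funext w; ring
  rw [e, integral_add, integral_sub i2 (i1.const_mul _), integral_const_mul,
    integral_const_mul, integral_ker, ← hm] at h0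
  · nlinarith
  · exact i2.sub (i1.const_mul _)
  · exact i0.const_mul _

theorem energy_mol_le (hG : GrowthSpec) (h : IsGM K u) (n : ℕ) (c : ℂ) {r : ℝ} (hr : 0 < r) :
    ∫⁻ z in ball c r, ENNReal.ofReal
      (mol n (grd K u 1) z ^ 2 + mol n (grd K u Complex.I) z ^ 2) ≤
        ENNReal.ofReal (2 * π * r) := by
  set Q : ℂ → ℝ := fun w => grd K u 1 w ^ 2 + grd K u Complex.I w ^ 2 with hQd
  have hx := locallyIntegrable_grd_sq h 1 (Or.inl rfl)
  have hy := locallyIntegrable_grd_sq h Complex.I (Or.inr rfl)
  have hQm : Measurable Q :=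
    ((measurable_grd h 1).pow_const 2).add ((measurable_grd h Complex.I).pow_const 2)
  have hkm : Measurable (ker n) := (ker_contDiff n).continuous.measurable
  have hpt : ∀ z, ENNReal.ofReal (mol n (grd K u 1) z ^ 2 + mol n (grd K u Complex.I) z ^ 2) ≤
      ∫⁻ s, ENNReal.ofReal (ker n s) * ENNReal.ofReal (Q (z - s)) := by
    intro z
    rw [← lintegral_sub_left_eq_self (fun s => ENNReal.ofReal (ker n s) * ENNReal.ofReal (Q (z - s))) z]
    simp only [sub_sub_cancel]
    have hQi : LocallyIntegrable Q := hx.add hy
    have i := integrable_mul_ker hQi n z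
    calc ENNReal.ofReal (mol n (grd K u 1) z ^ 2 + mol n (grd K u Complex.I) z ^ 2)
        ≤ ENNReal.ofReal (∫ w, Q w * ker n (z - w)) := by
          refine ENNReal.ofReal_le_ofReal ?_
          have a := mol_sq_le (locallyIntegrable_grd h 1 (Or.inl rfl)) hx n z
          have b := mol_sq_le (locallyIntegrable_grd h Complex.I (Or.inr rfl)) hy n z
          have e : (∫ w, Q w * ker n (z - w)) = (∫ w, grd K u 1 w ^ 2 * ker n (z - w)) +
              ∫ w, grd K u Complex.I w ^ 2 * ker n (z - w) := by
            simp only [hQd, add_mul]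
            exact integral_add (integrable_mul_ker hx n z) (integrable_mul_ker hy n z)
          linarith
      _ = ∫⁻ w, ENNReal.ofReal (Q w * ker n (z - w)) :=
          ofReal_integral_eq_lintegral_ofReal i (Eventually.of_forall fun w =>
            mul_nonneg (by positivity) (ker_nonneg n _))
      _ = _ := lintegral_congr fun w => by
          rw [← ENNReal.ofReal_mul (ker_nonneg n _), mul_comm]
  calc _ ≤ ∫⁻ z in ball c r, ∫⁻ s, ENNReal.ofReal (ker n s) * ENNReal.ofReal (Q (z - s)) :=
        lintegral_mono hpt
    _ = ∫⁻ s, ∫⁻ z in ball c r, ENNReal.ofReal (ker n s) * ENNReal.ofReal (Q (z - s)) :=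
        lintegral_lintegral_swap (Measurable.aemeasurable (by fun_prop))
    _ ≤ ∫⁻ s, ENNReal.ofReal (ker n s) * ENNReal.ofReal (2 * π * r) := by
        refine lintegral_mono fun s => ?_
        rw [lintegral_const_mul' _ _ ENNReal.ofReal_ne_top]
        refine mul_le_mul_right ?_ _
        refine le_of_eq_of_le ?_
          ((lintegral_grd_sq h (c - s) r).le.trans (energy_ball_le hG h (c - s) hr))
        rw [← lintegral_indicator measurableSet_ball, ← lintegral_indicator measurableSet_ball,
          ← lintegral_sub_right_eq_self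
            ((ball (c - s) r).indicator fun z => ENNReal.ofReal (Q z)) s]
        refine lintegral_congr fun z => ?_
        simp only [indicator, mem_ball, dist_eq_norm, hQd]
        congr 2
        abel_nf
    _ = _ := by
        rw [lintegral_mul_const' _ _ ENNReal.ofReal_ne_top,
          ← ofReal_integral_eq_lintegral_ofReal
            (show Integrable (ker n) volume from (bump n).integrable_normed (μ := volume))
            (Eventually.of_forall (ker_nonneg n)),
          show ∫ s, ker n s = 1 from (bump n).integral_normed (μ := volume), ENNReal.ofReal_one, one_mul]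

/-- The rotated mollified gradient as a 1-form. -/
def form (K : Set ℂ) (u : ℂ → ℝ) (n : ℕ) (z : ℂ) : ℂ →L[ℝ] ℝ :=
  (-mol n (grd K u Complex.I) z) • Complex.reCLM + mol n (grd K u 1) z • Complex.imCLM

theorem form_apply (n : ℕ) (z w : ℂ) : form K u n z w =
    -mol n (grd K u Complex.I) z * w.re + mol n (grd K u 1) z * w.im := by
  simp [form]

theorem test_ker (hT : TestSpec) (h : IsGM K u) (n : ℕ) (z : ℂ) :
    (∫ w, grd K u 1 w * fderiv ℝ (ker n) (z - w) 1) +
      ∫ w, grd K u Complex.I w * fderiv ℝ (ker n) (z - w) Complex.I = 0 := by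
  set φ : ℂ → ℝ := fun w => ker n (z - w) with hφ
  have hd : ∀ w e, fderiv ℝ φ w e = -fderiv ℝ (ker n) (z - w) e := by
    intro w e
    have h1 := ((ker_contDiff n).differentiable one_ne_zero (z - w)).hasFDerivAt.comp w
      ((hasFDerivAt_id w).const_sub z)
    have h2 : HasFDerivAt φ _ w := h1
    rw [h2.fderiv]
    simp
  have hc : ContDiff ℝ 1 φ := (ker_contDiff n).comp (by fun_prop)
  have hs : HasCompactSupport φ := (ker_compact n).comp_homeomorph (Homeomorph.subLeft z)
  have hfin : dirichlet K φ univ < ⊤ := by
    refine lt_of_le_of_lt (setLIntegral_le_lintegral _ _) ?_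
    have hcg : Continuous (gradSq φ) := by
      have := hc.continuous_fderiv one_ne_zero
      unfold gradSq; fun_prop
    have hcs : HasCompactSupport (gradSq φ) := by
      refine hs.fderiv (𝕜 := ℝ) |>.mono ?_
      intro w hw hw'
      exact hw (by simp [gradSq, hw'])
    exact (hcg.integrable_of_hasCompactSupport hcs).lintegral_lt_top
  obtain ⟨-, hzero⟩ := hT K u h φ hc.locallyLipschitz.locallyLipschitzOn hs hfin
  rw [← integral_indicator h.isClosed.measurableSet.compl] at hzero
  have e : Kᶜ.indicator (gradInner u φ) = fun w =>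
      -(grd K u 1 w * fderiv ℝ (ker n) (z - w) 1 +
        grd K u Complex.I w * fderiv ℝ (ker n) (z - w) Complex.I) := by
    funext w
    by_cases hw : w ∈ Kᶜ
    · simp only [gradInner, grd, indicator_of_mem hw, hd]; ring
    · simp [grd, indicator_of_notMem hw]
  rw [e, integral_neg, neg_eq_zero,
    integral_add (integrable_mul_fderiv_ker (locallyIntegrable_grd h 1 (Or.inl rfl)) n z 1)
      (integrable_mul_fderiv_ker
        (locallyIntegrable_grd h Complex.I (Or.inr rfl)) n z Complex.I)] at hzero
  exact hzero

/-- Primitive of the mollified rotated gradient. -/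
theorem exists_primitive (hT : TestSpec) (hG : GrowthSpec) (h : IsGM K u) (n : ℕ) :
    ∃ F : ℂ → ℝ, F 0 = 0 ∧ ContDiff ℝ 1 F ∧ (∀ z, HasFDerivAt F (form K u n z) z) ∧
      ∀ x y, |F x - F y| ≤ 12 * Real.sqrt ‖x - y‖ := by
  have hfx := locallyIntegrable_grd h 1 (Or.inl rfl)
  have hfy := locallyIntegrable_grd h Complex.I (Or.inr rfl)
  have hd : ∀ z, HasFDerivAt (form K u n)
      ((-fderiv ℝ (mol n (grd K u Complex.I)) z).smulRight Complex.reCLM +
        (fderiv ℝ (mol n (grd K u 1)) z).smulRight Complex.imCLM) z := by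
    intro z
    exact (((hasFDerivAt_mol hfy n z).differentiableAt.hasFDerivAt.neg).smul_const
      Complex.reCLM).add ((hasFDerivAt_mol hfx n z).differentiableAt.hasFDerivAt.smul_const
        Complex.imCLM)
  obtain ⟨F, hF⟩ := Convex.exists_forall_hasFDerivAt_of_fderiv_symmetric (convex_univ (𝕜 := ℝ))
    isOpen_univ (ω := form K u n) (fun z _ => (hd z).differentiableAt.differentiableWithinAt)
    (fun z _ x y => by
      rw [(hd z).fderiv]
      have key := test_ker hT h n z
      rw [← fderiv_mol hfx, ← fderiv_mol hfy] at key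
      have lin : ∀ (L : ℂ →L[ℝ] ℝ) (w : ℂ), L w = w.re * L 1 + w.im * L Complex.I := by
        intro L w
        have hw : w = w.re • (1 : ℂ) + w.im • Complex.I := by apply Complex.ext <;> simp
        conv_lhs => rw [hw]
        rw [map_add, map_smul, map_smul, smul_eq_mul, smul_eq_mul]
      simp only [add_apply, ContinuousLinearMap.smulRight_apply, neg_apply, smul_apply,
        Complex.reCLM_apply, Complex.imCLM_apply, smul_eq_mul]
      rw [lin _ x, lin (fderiv ℝ (mol n (grd K u 1)) z) x, lin _ y,
        lin (fderiv ℝ (mol n (grd K u 1)) z) y]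
      linear_combination (x.re * y.im - x.im * y.re) * key)
  have hF' : ∀ z, HasFDerivAt (fun z => F z - F 0) (form K u n z) z := fun z =>
    (hF z (mem_univ z)).sub_const _
  have hcd : ContDiff ℝ 1 fun z => F z - F 0 :=
    contDiff_one_iff_fderiv.2 ⟨fun z => (hF' z).differentiableAt, by
      rw [show fderiv ℝ (fun z => F z - F 0) = form K u n from funext fun z => (hF' z).fderiv]
      exact continuous_iff_continuousAt.2 fun z => (hd z).continuousAt⟩
  refine ⟨fun z => F z - F 0, sub_self _, hcd, hF', morrey hcd fun c r hr => ?_⟩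
  refine le_of_eq_of_le (lintegral_congr fun z => ?_) (energy_mol_le hG h n c hr)
  congr 1
  rw [gradSq, (hF' z).fderiv, form_apply, form_apply]
  simp
  ring

/-- The stream potential, with its weak derivatives. -/
theorem exists_potential (hT : TestSpec) (hG : GrowthSpec) (h : IsGM K u) :
    ∃ V : ℂ → ℝ, V 0 = 0 ∧ Continuous V ∧ (∀ x y, |V x - V y| ≤ 12 * Real.sqrt ‖x - y‖) ∧
      (∀ z ∉ K, DifferentiableAt ℝ V z ∧
        ∀ w : ℂ, fderiv ℝ V z w = fderiv ℝ u z (-(Complex.I * w))) ∧
      ∀ ψ : ℂ → ℝ, ContDiff ℝ 1 ψ → HasCompactSupport ψ →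
        (∫ z, V z * fderiv ℝ ψ z 1) = ∫ z, grd K u Complex.I z * ψ z ∧
        (∫ z, V z * fderiv ℝ ψ z Complex.I) = -∫ z, grd K u 1 z * ψ z := by
  choose F hF0 hFc hFd hFh using fun n => exists_primitive hT hG h n
  set d : ℕ → ℂ := TopologicalSpace.denseSeq ℂ with hdd
  have hFb : ∀ n z, |F n z| ≤ 12 * Real.sqrt ‖z‖ := fun n z => by
    simpa [hF0 n] using hFh n z 0
  obtain ⟨g, -, φ, hφ, hlim⟩ :=
    (isCompact_univ_pi fun j => isCompact_Icc (a := -(12 * Real.sqrt ‖d j‖))
      (b := 12 * Real.sqrt ‖d j‖)).tendsto_subseq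
        (x := fun n j => F n (d j)) fun n j _ => abs_le.1 (hFb n (d j))
  have hC : ∀ z, CauchySeq fun k => F (φ k) z := by
    intro z
    rw [Metric.cauchySeq_iff]
    intro ε hε
    obtain ⟨j, hj⟩ := (TopologicalSpace.denseRange_denseSeq ℂ).exists_dist_lt z
      (show 0 < (ε / 48) ^ 2 by positivity)
    obtain ⟨N, hN⟩ := Metric.cauchySeq_iff.1 ((tendsto_pi_nhds.1 hlim j).cauchySeq) (ε / 3)
      (by positivity)
    refine ⟨N, fun a ha b hb => ?_⟩
    have h1 : Real.sqrt ‖z - d j‖ ≤ ε / 48 := by
      rw [Real.sqrt_le_left (by positivity), ← dist_eq_norm]; exact hj.le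
    have := hN a ha b hb
    simp only [Function.comp_apply, Real.dist_eq] at this ⊢
    have e1 := abs_le.1 ((hFh (φ a) z (d j)).trans (mul_le_mul_of_nonneg_left h1 (by norm_num)))
    have e2 := abs_le.1 ((hFh (φ b) z (d j)).trans (mul_le_mul_of_nonneg_left h1 (by norm_num)))
    rw [abs_lt] at this ⊢
    constructor <;> linarith
  choose V hV using fun z => cauchySeq_tendsto_of_complete (hC z)
  have hVh : ∀ x y, |V x - V y| ≤ 12 * Real.sqrt ‖x - y‖ := fun x y =>
    le_of_tendsto ((hV x).sub (hV y)).abs (Eventually.of_forall fun k => hFh (φ k) x y)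
  have hVc : Continuous V := by
    rw [continuous_iff_continuousAt]
    intro x
    rw [ContinuousAt, tendsto_iff_norm_sub_tendsto_zero]
    refine squeeze_zero (fun _ => norm_nonneg _) (fun y => hVh y x) ?_
    simpa using (show Continuous fun y => 12 * Real.sqrt ‖y - x‖ by fun_prop).tendsto x
  refine ⟨V, ?_, hVc, hVh, ?_, ?_⟩
  · exact tendsto_nhds_unique (hV 0) (by simp [hF0])
  · intro z hz
    set g' : ℂ → ℂ →L[ℝ] ℝ := fun z =>
      (-grd K u Complex.I z) • Complex.reCLM + grd K u 1 z • Complex.imCLM with hg'
    have hu : TendstoLocallyUniformlyOn (fun k => form K u (φ k)) g' atTop Kᶜ := by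
      rw [Metric.tendstoLocallyUniformlyOn_iff]
      intro ε hε y hy
      obtain ⟨t1, ht1, h1⟩ := Metric.tendstoLocallyUniformlyOn_iff.1
        (mol_tendsto h Complex.I (Or.inr rfl)) (ε / 3) (by positivity) y hy
      obtain ⟨t2, ht2, h2⟩ := Metric.tendstoLocallyUniformlyOn_iff.1
        (mol_tendsto h 1 (Or.inl rfl)) (ε / 3) (by positivity) y hy
      refine ⟨t1 ∩ t2, inter_mem ht1 ht2, ?_⟩
      filter_upwards [hφ.tendsto_atTop.eventually h1, hφ.tendsto_atTop.eventually h2]
        with k a b w hw
      have a' := a w hw.1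
      have b' := b w hw.2
      rw [dist_eq_norm] at a' b' ⊢
      have e : g' w - form K u (φ k) w =
          (-(grd K u Complex.I w - mol (φ k) (grd K u Complex.I) w)) • Complex.reCLM +
            (grd K u 1 w - mol (φ k) (grd K u 1) w) • Complex.imCLM := by
        simp only [hg', form]; module
      rw [e]
      refine (norm_add_le _ _).trans_lt ?_
      rw [norm_smul, norm_smul, Complex.reCLM_norm, Complex.imCLM_norm, norm_neg]
      linarith
    have hd : HasFDerivAt V (g' z) z :=
      hasFDerivAt_of_tendstoLocallyUniformlyOn h.isOpen_compl hu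
        (fun k x _ => hFd (φ k) x) (fun x _ => hV x) hz
    refine ⟨hd.differentiableAt, fun w => ?_⟩
    rw [hd.fderiv]
    have hw : -(Complex.I * w) = w.im • (1 : ℂ) + (-w.re) • Complex.I := by
      apply Complex.ext <;> simp
    rw [hw, map_add, map_smul, map_smul]
    simp [hg', grd, indicator_of_mem (show z ∈ Kᶜ from hz)]
    ring
  · intro ψ hψ hψs
    obtain ⟨R, hR, hRs⟩ : ∃ R, 0 < R ∧ tsupport ψ ⊆ ball 0 R := by
      obtain ⟨R, hR⟩ := hψs.isCompact.isBounded.subset_ball 0
      exact ⟨max R 1, lt_max_of_lt_right one_pos, hR.trans (ball_subset_ball (le_max_left _ _))⟩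
    obtain ⟨M, hM⟩ := hψ.continuous.bounded_above_of_compact_support hψs
    have hlhs : ∀ e, Tendsto (fun k => ∫ z, F (φ k) z * fderiv ℝ ψ z e) atTop
        (𝓝 (∫ z, V z * fderiv ℝ ψ z e)) := by
      intro e
      have hc : Continuous fun z => fderiv ℝ ψ z e :=
        (hψ.continuous_fderiv one_ne_zero).clm_apply continuous_const
      have hcs : HasCompactSupport fun z => fderiv ℝ ψ z e := hψs.fderiv_apply (𝕜 := ℝ) e
      refine tendsto_integral_of_dominated_convergence
        (fun z => 12 * Real.sqrt ‖z‖ * |fderiv ℝ ψ z e|)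
        (fun k => ((hFc (φ k)).continuous.mul hc).aestronglyMeasurable) ?_
        (fun k => Eventually.of_forall fun z => ?_)
        (Eventually.of_forall fun z => (hV z).mul_const _)
      · refine Continuous.integrable_of_hasCompactSupport (by fun_prop) (hcs.mono ?_)
        intro z hz hz'
        exact hz (by simp [hz'])
      · rw [Real.norm_eq_abs, abs_mul]
        exact mul_le_mul_of_nonneg_right (hFb _ z) (abs_nonneg _)
    have hrhs : ∀ e, (e = 1 ∨ e = Complex.I) →
        Tendsto (fun k => ∫ z, mol (φ k) (grd K u e) z * ψ z) atTop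
          (𝓝 (∫ z, grd K u e z * ψ z)) := by
      intro e he
      have hl := locallyIntegrable_grd h e he
      have hswap : ∀ n, ∫ z, mol n (grd K u e) z * ψ z =
          ∫ w, grd K u e w * ∫ z, ψ z * ker n (z - w) := by
        intro n
        simp only [mol_apply, ← integral_mul_const, ← integral_const_mul]
        rw [integral_integral_swap]
        · refine integral_congr_ae (Eventually.of_forall fun w => ?_)
          refine integral_congr_ae (Eventually.of_forall fun z => ?_)
          simp only
          ring
        · obtain ⟨Mk, hMk⟩ := (ker_contDiff n).continuous.bounded_above_of_compact_support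
            (ker_compact n)
          have hbound : Integrable (fun p : ℂ × ℂ => (ball (0 : ℂ) R).indicator
              (fun _ => M * Mk) p.1 * (ball (0 : ℂ) (R + 1)).indicator
                (fun w => |grd K u e w|) p.2) (volume.prod volume) := by
            refine Integrable.mul_prod ?_ ?_
            · exact (integrable_indicator_iff measurableSet_ball).2
                (integrableOn_const measure_ball_lt_top.ne)
            · exact (integrable_indicator_iff measurableSet_ball).2
                ((hl.integrableOn_isCompact (isCompact_closedBall 0 (R + 1))).mono_set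
                  ball_subset_closedBall).norm
          refine hbound.mono' ?_ (Eventually.of_forall fun p => ?_)
          · refine Measurable.aestronglyMeasurable ?_
            have h1 := measurable_grd h e
            have h2 := (ker_contDiff n).continuous
            have h3 := hψ.continuous
            unfold Function.uncurry
            fun_prop
          · simp only [Function.uncurry, norm_mul, Real.norm_eq_abs]
            by_cases hk : ker n (p.1 - p.2) = 0
            · rw [hk, abs_zero, mul_zero, zero_mul]
              refine mul_nonneg (indicator_nonneg (fun _ _ => ?_) _)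
                (indicator_nonneg (fun _ _ => abs_nonneg _) _)
              exact mul_nonneg ((norm_nonneg _).trans (hM 0)) ((norm_nonneg _).trans (hMk 0))
            by_cases hp : ψ p.1 = 0
            · rw [hp, abs_zero, mul_zero]
              refine mul_nonneg (indicator_nonneg (fun _ _ => ?_) _)
                (indicator_nonneg (fun _ _ => abs_nonneg _) _)
              exact mul_nonneg ((norm_nonneg _).trans (hM 0)) ((norm_nonneg _).trans (hMk 0))
            have hp1 : p.1 ∈ ball (0 : ℂ) R := hRs (subset_tsupport _ hp)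
            have hr1 : (bump n).rOut ≤ 1 :=
              inv_le_one_of_one_le₀ (by linarith [n.cast_nonneg (α := ℝ)])
            have hp2 : p.2 ∈ ball (0 : ℂ) (R + 1) := by
              rw [mem_ball_zero_iff] at hp1 ⊢
              have hlt : ‖p.1 - p.2‖ < (bump n).rOut :=
                lt_of_not_ge fun hge => hk (ker_eq_zero n hge)
              have := norm_sub_norm_le p.2 p.1
              rw [norm_sub_rev] at this
              linarith
            rw [indicator_of_mem hp1, indicator_of_mem hp2]
            calc |grd K u e p.2| * |ker n (p.1 - p.2)| * |ψ p.1|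
                ≤ |grd K u e p.2| * Mk * M :=
                  mul_le_mul (mul_le_mul_of_nonneg_left (hMk _) (abs_nonneg _)) (hM _)
                    (abs_nonneg _) (mul_nonneg (abs_nonneg _) ((norm_nonneg _).trans (hMk 0)))
              _ = _ := by ring
      simp only [hswap]
      have hsh : ∀ n w, ∫ z, ψ z * ker n (z - w) = ∫ z, ψ z * ker n (w - z) := fun n w =>
        integral_congr_ae (Eventually.of_forall fun z => by
          simp only [ker]
          rw [← neg_sub, ContDiffBump.normed_neg])
      refine tendsto_integral_of_dominated_convergence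
        ((ball (0 : ℂ) (R + 1)).indicator fun w => M * |grd K u e w|) (fun k => ?_)
        ((integrable_indicator_iff measurableSet_ball).2
          (((hl.integrableOn_isCompact (isCompact_closedBall 0 (R + 1))).mono_set
            ball_subset_closedBall).norm.const_mul M))
        (fun k => Eventually.of_forall fun w => ?_) (Eventually.of_forall fun w => ?_)
      · refine (measurable_grd h e).aestronglyMeasurable.mul ?_
        simp only [hsh]
        exact ((ker_compact (φ k)).continuous_convolution_right (ContinuousLinearMap.mul ℝ ℝ)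
          hψ.continuous.locallyIntegrable (ker_contDiff (φ k)).continuous).aestronglyMeasurable
      · have hψl := hψ.continuous.locallyIntegrable (μ := volume)
        have hb : |mol (φ k) ψ w - 0| ≤ M := mol_sub_le hψl _ w fun z _ => by
          simpa [Real.norm_eq_abs] using hM z
        rw [sub_zero, mol_apply, ← hsh] at hb
        rw [Real.norm_eq_abs, abs_mul]
        by_cases hw : w ∈ ball (0 : ℂ) (R + 1)
        · rw [indicator_of_mem hw, mul_comm M]
          exact mul_le_mul_of_nonneg_left hb (abs_nonneg _)
        · rw [indicator_of_notMem hw]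
          have hz : ∫ z, ψ z * ker (φ k) (z - w) = 0 := by
            refine integral_eq_zero_of_ae (Eventually.of_forall fun z => ?_)
            by_contra hne
            have h1 : z ∈ ball (0 : ℂ) R := hRs (subset_tsupport _ (left_ne_zero_of_mul hne))
            have h2 : ‖z - w‖ < (bump (φ k)).rOut :=
              lt_of_not_ge fun hge => right_ne_zero_of_mul hne (ker_eq_zero _ hge)
            have hr1 : (bump (φ k)).rOut ≤ 1 :=
              inv_le_one_of_one_le₀ (by linarith [(φ k).cast_nonneg (α := ℝ)])
            rw [mem_ball_zero_iff, not_lt] at hw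
            rw [mem_ball_zero_iff] at h1
            have := norm_sub_norm_le w z
            rw [norm_sub_rev] at this
            linarith
          rw [hz, abs_zero, mul_zero]
      · refine Tendsto.const_mul _ ?_
        simp only [hsh]
        rw [Metric.tendsto_nhds]
        intro ε hε
        obtain ⟨δ, hδ, hδ'⟩ := Metric.continuous_iff.1 hψ.continuous w (ε / 2) (by positivity)
        filter_upwards [(tendsto_rOut.comp hφ.tendsto_atTop).eventually (eventually_lt_nhds hδ)]
          with k hk
        have := mol_sub_le hψ.continuous.locallyIntegrable (φ k) w (c := ψ w) (ε := ε / 2)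
          fun z hz => (hδ' z (lt_trans (mem_ball.1 hz) hk)).le
        rw [Real.dist_eq, ← mol_apply]
        linarith
    have hibp : ∀ n e, ∫ z, F n z * fderiv ℝ ψ z e = -∫ z, form K u n z e * ψ z := by
      intro n e
      have hc : Continuous fun z => fderiv ℝ ψ z e :=
        (hψ.continuous_fderiv one_ne_zero).clm_apply continuous_const
      have hF1 : Continuous fun z => fderiv ℝ (F n) z e :=
        ((hFc n).continuous_fderiv one_ne_zero).clm_apply continuous_const
      have hb := integral_mul_fderiv_eq_neg_fderiv_mul_of_integrable (μ := (volume : Measure ℂ))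
        (f := F n) (g := ψ) (v := e)
        ((hF1.mul hψ.continuous).integrable_of_hasCompactSupport hψs.mul_left)
        (((hFc n).continuous.mul hc).integrable_of_hasCompactSupport
          (hψs.fderiv_apply (𝕜 := ℝ) e).mul_left)
        (((hFc n).continuous.mul hψ.continuous).integrable_of_hasCompactSupport hψs.mul_left)
        (fun z _ => (hFc n).differentiable one_ne_zero z) (fun z _ => hψ.differentiable one_ne_zero z)
      rw [hb]
      simp only [(hFd n _).fderiv]
    constructor
    · refine tendsto_nhds_unique (hlhs 1) ((hrhs Complex.I (Or.inr rfl)).congr fun k => ?_)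
      rw [hibp, ← integral_neg]
      simp only [form_apply, Complex.one_re, Complex.one_im]
      congr 1; funext z; ring
    · refine tendsto_nhds_unique (hlhs Complex.I) (((hrhs 1 (Or.inl rfl)).neg).congr fun k => ?_)
      rw [hibp]
      simp only [form_apply, Complex.I_re, Complex.I_im]
      congr 2; funext z; ring

end Vale.Agent.P128.StreamAux
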